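import Vale.Agent.P027M.B.Defs
import Vale.Agent.P022.H20.GalDef

/-! # P027, route M, block INT + VAL : statements (owner helper12)

Integrality of the constants of a primitive parametrisation, and the product formula. -/

open Polynomial
open scoped PowerSeries NNReal

noncomputable section

namespace Vale.Agent.P027M.N

open Vale.Agent.P022

/-- bounded denominators: all coefficients lie in one finitely generated abelian group -/
def BD {k : Type*} [Field k] (f : k⟦X⟧) : Prop :=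
  ∃ M : Submodule ℤ k, M.FG ∧ ∀ n, PowerSeries.coeff n f ∈ M

/-- a quotient of two series with bounded denominators -/
def FrBD {k : Type*} [Field k] (y : k⟦X⟧) : Prop :=
  ∃ a b : k⟦X⟧, BD a ∧ BD b ∧ b ≠ 0 ∧ b * y = a

/-- the polynomial `m (m² - e1) (m² - e2) (m² - e3)` -/
def fE {k : Type*} [CommRing k] (e1 e2 e3 : k) : k[X] :=
  X * (X ^ 2 - C e1) * (X ^ 2 - C e2) * (X ^ 2 - C e3)

/-- the member of the family with twist `T` -/
def fT (g : ℚ) (T : Qb) : Qb[X] := fE T ((c3 g : ℚ) * T) ((d2 g : ℚ) * T)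

/-- **the output of B2 + B3**: a formal parametrisation whose Mumford polynomial has coefficients
in the field of series with bounded denominators, which kills `ω_E = (m² - g' T) dm / w`, and
whose twist invariant constant `x = c₀ c₁ T²` lies in `ℚ(i)` and has norm at most `A` -/
def Prim (g : ℚ) (A : ℝ) : Prop :=
  ∃ (T i : Qb) (m0 s : Fin 3 → Qb) (h m w : Fin 3 → Qb⟦X⟧) (n0 n1 : ℕ) (x y : ℚ),
    T ≠ 0 ∧ i ^ 2 = -1 ∧ Function.Injective m0 ∧ (∀ k, s k ≠ 0) ∧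
    B.Sol (fT g T) m0 s h m w ∧ (∀ j, BD (h j)) ∧
    (∀ n, FrBD ((∏ k, (X - C (m k))).coeff n)) ∧
    h 2 = PowerSeries.C ((((3 - g) / (g + 1) : ℚ) : Qb) * T) * h 0 ∧
    PowerSeries.coeff n0 (h 0) * PowerSeries.coeff n1 (h 1) * T ^ 2 = x + y * i ∧
    (x ≠ 0 ∨ y ≠ 0) ∧ ((x ^ 2 + y ^ 2 : ℚ) : ℝ) ≤ A

/-- **OUT23** -/
def OUT23 : Prop := ∃ (κ : ℕ) (C : ℝ), ∀ g : ℚ, Std g → Prim g (Real.exp (C * (Vis g : ℝ) ^ κ))

/-! ### derivations and valuations -/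

/-- [N.step] one cyclic step loses `l ^ 2`.  `S` is a subfield of `L` stable under `σ`, `σ ^ l = 1`
on `S`; `d` is a derivation of `L` with values in the valued field `Ω`; `k0` are the constants. -/
def STEP : Prop := ∀ (L Ω Γ : Type) [Field L] [CharZero L] [Field Ω]
  [LinearOrderedCommGroupWithZero Γ] (w : Valuation Ω Γ) (ι : L →+* Ω) (d : L →+ Ω)
  (k0 S : Subfield L) (σ : L ≃+* L) (l : ℕ) (ζ : L) (c : L),
  (∀ x y, d (x * y) = ι x * d y + ι y * d x) → k0 ≤ S → (∀ a ∈ k0, d a = 0 ∧ σ a = a) →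
  (∀ x : L, x ≠ 0 → ∃ a ∈ k0, w (ι a) = w (ι x)) → (∀ n : ℤ, w (n : Ω) ≤ 1) →
  0 < l → ζ ∈ k0 → IsPrimitiveRoot ζ l → (∀ x ∈ S, σ x ∈ S) → (∀ x ∈ S, σ^[l] x = x) →
  (∀ y ∈ S, σ y = y → w (ι c * d y) ≤ w (ι y)) →
  ∀ x ∈ S, w (ι ((l : L) ^ 2 * c) * d x) ≤ w (ι x)

/-- [N.der3] the splitting field of a cubic loses `36`; from `STEP` -/
def DER3 : Prop := ∀ (Ω Γ : Type) [Field Ω] [CharZero Ω] [LinearOrderedCommGroupWithZero Γ]
  (w : Valuation Ω Γ) (d : Ω →+ Ω) (k0 Y : Subfield Ω) (m : Fin 3 → Ω) (ζ : Ω),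
  (∀ x y, d (x * y) = x * d y + y * d x) → k0 ≤ Y → (∀ a ∈ k0, d a = 0) →
  (∀ a ∈ k0, ∀ n : ℕ, 0 < n → ∃ b ∈ k0, b ^ n = a) → ζ ∈ k0 → IsPrimitiveRoot ζ 3 →
  (∀ n : ℤ, w (n : Ω) ≤ 1) →
  (∀ y ∈ Y, y ≠ 0 → ∃ a ∈ k0, w a = w y) → (∀ y ∈ Y, w (d y) ≤ w y) →
  Function.Injective m → (∀ n, (∏ j, (X - C (m j))).coeff n ∈ Y) →
  ∀ x ∈ Subfield.closure ((Y : Set Ω) ∪ Set.range m),
    w (36 * d x) ≤ w x ∧ (x ≠ 0 → ∃ a ∈ k0, w a = w x)

/-- `q d/dq` on Laurent series -/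
def thL {k : Type*} [Field k] (f : LaurentSeries k) : LaurentSeries k :=
  ⟨fun n => (n : k) * f.coeff n, f.isPWO_support'.mono fun n hn h0 => hn (by
    have h1 : f.coeff n = 0 := h0
    show (n : k) * f.coeff n = 0
    rw [h1, mul_zero])⟩

theorem coeff_thL {k : Type*} [Field k] (f : LaurentSeries k) (n : ℤ) :
    (thL f).coeff n = (n : k) * f.coeff n := rfl

theorem thL_add {k : Type*} [Field k] (f g : LaurentSeries k) : thL (f + g) = thL f + thL g := by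
  ext n
  simp only [coeff_thL, HahnSeries.coeff_add, mul_add]

theorem thL_C {k : Type*} [Field k] (a : k) : thL (HahnSeries.C a : LaurentSeries k) = 0 := by
  ext n
  rw [coeff_thL, HahnSeries.C_apply]
  by_cases h : n = 0
  · subst h; simp
  · rw [HahnSeries.coeff_single_of_ne h, mul_zero]; rfl

theorem thL_coe {k : Type*} [Field k] (f : k⟦X⟧) :
    thL (f : LaurentSeries k) = ((B.th f : k⟦X⟧) : LaurentSeries k) := by
  ext n
  rw [coeff_thL]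
  rcases lt_or_ge n 0 with h | h
  · rw [PowerSeries.coeff_coe, PowerSeries.coeff_coe, if_pos h, if_pos h, mul_zero]
  · obtain ⟨n, rfl⟩ := Int.eq_ofNat_of_zero_le h
    rw [LaurentSeries.coeff_coe_powerSeries, LaurentSeries.coeff_coe_powerSeries, B.th]
    cases n with
    | zero => simp
    | succ n =>
      rw [PowerSeries.coeff_succ_X_mul, PowerSeries.coeff_derivative]
      push_cast; ring

/-- [N.leib] (20 lines: `HahnSeries.coeff_mul_left'`, or clear the pole and use `thL_coe`) -/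
def LEIB : Prop := ∀ (k : Type) [Field k] (f g : LaurentSeries k),
  thL (f * g) = f * thL g + g * thL f

/-- [N.gauss] the Gauss valuation: a valuation ring of the field of Laurent series -/
def GAUSS : Prop := ∀ (k : Type) [Field k] [CharZero k] (v : Valuation k ℝ≥0),
  (∀ n : ℤ, v (n : k) ≤ 1) →
  ∃ (W : ValuationSubring (LaurentSeries k)) (Y : Subfield (LaurentSeries k)),
    (∀ a b : k, W.valuation (HahnSeries.C a) ≤ W.valuation (HahnSeries.C b) ↔ v a ≤ v b) ∧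
    (∀ a : k, HahnSeries.C a ∈ Y) ∧ (∀ y : k⟦X⟧, FrBD y → (y : LaurentSeries k) ∈ Y) ∧
    (∀ y ∈ Y, y ≠ 0 → ∃ a : k, W.valuation (HahnSeries.C a) = W.valuation y) ∧
    (∀ y ∈ Y, W.valuation (thL y) ≤ W.valuation y) ∧
    ∀ f : k⟦X⟧, BD f → ∀ n,
      W.valuation (HahnSeries.C (PowerSeries.coeff n f)) ≤ W.valuation (f : LaurentSeries k)

/-- the possible distances of a point of the `U`-line (`U = m ^ 2`) from `0, e1, e2, e3` -/
structure Ult {k : Type*} [Field k] (v : Valuation k ℝ≥0) (e1 e2 e3 : k) (δ0 δ1 δ2 δ3 : ℝ≥0) :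
    Prop where
  p0 : 0 < δ0
  p1 : 0 < δ1
  p2 : 0 < δ2
  p3 : 0 < δ3
  h01 : v e1 ≤ max δ0 δ1
  h02 : v e2 ≤ max δ0 δ2
  h03 : v e3 ≤ max δ0 δ3
  h12 : v (e1 - e2) ≤ max δ1 δ2
  h13 : v (e1 - e3) ≤ max δ1 δ3
  h23 : v (e2 - e3) ≤ max δ2 δ3
  u1 : δ0 ≤ max δ1 (v e1)
  u2 : δ0 ≤ max δ2 (v e2)
  u3 : δ0 ≤ max δ3 (v e3)

/-- [N.int] **integrality**; from `DER3`, `GAUSS` -/
def INT : Prop := ∀ (k : Type) [Field k] [CharZero k] [IsAlgClosed k] (v : Valuation k ℝ≥0)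
  (e1 e2 e3 : k) (m0 s : Fin 3 → k) (h m w : Fin 3 → k⟦X⟧) (j : Fin 3) (Bd : ℝ≥0),
  (∀ n : ℤ, v (n : k) ≤ 1) → Function.Injective m0 → (∀ a, s a ≠ 0) →
  B.Sol (fE e1 e2 e3) m0 s h m w → BD (h j) → (∀ n, FrBD ((∏ a, (X - C (m a))).coeff n)) →
  (∀ δ0 δ1 δ2 δ3, Ult v e1 e2 e3 δ0 δ1 δ2 δ3 →
    min (min δ0 δ1) (min δ2 δ3) ^ 4 * δ0 ^ (2 * (j : ℕ)) ≤ Bd * δ0 ^ 3 * (δ1 * δ2 * δ3) ^ 2) →
  ∀ n, v (72 * PowerSeries.coeff n (h j)) ^ 4 ≤ Bd

/-- [N.loc] the local inequality at one valuation; from `INT` and piecewise linear inequalities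
(`a`, `b` coprime: at most one of `a, b, a + b, a - b, 3 b - a` has valuation below that of `12`) -/
def LOC : Prop := ∃ K : ℕ, ∀ (g : ℚ) (T : Qb) (m0 s : Fin 3 → Qb) (h m w : Fin 3 → Qb⟦X⟧)
  (n0 n1 : ℕ) (v : Valuation Qb ℝ≥0), (∀ n : ℤ, v (n : Qb) ≤ 1) →
  g ≠ 0 → g + 1 ≠ 0 → g - 1 ≠ 0 → g - 3 ≠ 0 → T ≠ 0 → Function.Injective m0 → (∀ k, s k ≠ 0) →
  B.Sol (fT g T) m0 s h m w → (∀ j, BD (h j)) → (∀ n, FrBD ((∏ k, (X - C (m k))).coeff n)) →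
  h 2 = PowerSeries.C ((((3 - g) / (g + 1) : ℚ) : Qb) * T) * h 0 →
  v (12 ^ K * (PowerSeries.coeff n0 (h 0) * PowerSeries.coeff n1 (h 1) * T ^ 2) ^ 4 *
      ((g.num * (3 * g.den - g.num) * (g.num - g.den) ^ 8 : ℤ) : Qb)) ≤
    v (((g.num + g.den) ^ 11 * g.den ^ 3 : ℤ) : Qb)

/-- [N.val] **the product formula**; from `LOC` -/
def VAL : Prop := ∃ C : ℝ, 0 < C ∧ ∀ (g : ℚ) (A : ℝ), Std g → Prim g A →
  ((max g.num.natAbs g.den : ℕ) : ℝ) ≤ C * A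

/-- [N.ht] from `VAL` -/
def HTOF : Prop := OUT23 → HT

end Vale.Agent.P027M.N
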