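import Mathlib

/-! # P027M, block INT: logarithmic derivatives of three conjugate elements -/

set_option linter.all false

namespace Vale.Agent.P027M.N

/-- the symmetric functions lie in `Y` -/
structure S3 {Ω : Type} [Field Ω] (Y : Subfield Ω) (x y z : Ω) : Prop where
  e1 : x + y + z ∈ Y
  e2 : x * y + x * z + y * z ∈ Y
  e3 : x * y * z ∈ Y

namespace S3

variable {Ω : Type} [Field Ω] {Y : Subfield Ω} {x y z : Ω} (h : S3 Y x y z)
include h

theorem swap : S3 Y y x z :=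
  ⟨by convert h.e1 using 1; ring, by convert h.e2 using 1; ring, by convert h.e3 using 1; ring⟩

theorem swap' : S3 Y x z y :=
  ⟨by convert h.e1 using 1; ring, by convert h.e2 using 1; ring, by convert h.e3 using 1; ring⟩

theorem inv (hx : x ≠ 0) (hy : y ≠ 0) (hz : z ≠ 0) : S3 Y x⁻¹ y⁻¹ z⁻¹ :=
  ⟨by convert div_mem h.e2 h.e3 using 1; field_simp; ring,
    by convert div_mem h.e1 h.e3 using 1; field_simp; ring,
    by convert inv_mem h.e3 using 1; field_simp⟩

theorem sq : S3 Y (x ^ 2) (y ^ 2) (z ^ 2) :=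
  ⟨by convert sub_mem (mul_mem h.e1 h.e1) (add_mem h.e2 h.e2) using 1; ring,
    by convert sub_mem (mul_mem h.e2 h.e2)
        (add_mem (mul_mem h.e1 h.e3) (mul_mem h.e1 h.e3)) using 1; ring,
    by convert mul_mem h.e3 h.e3 using 1; ring⟩

theorem sub {c : Ω} (hc : c ∈ Y) : S3 Y (x - c) (y - c) (z - c) :=
  ⟨by convert sub_mem h.e1 (add_mem hc (add_mem hc hc)) using 1; ring,
    by convert add_mem (sub_mem h.e2 (mul_mem (add_mem hc hc) h.e1))
        (mul_mem hc (add_mem hc (add_mem hc hc))) using 1; ring,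
    by convert sub_mem (add_mem (sub_mem h.e3 (mul_mem hc h.e2)) (mul_mem (mul_mem hc hc) h.e1))
        (mul_mem hc (mul_mem hc hc)) using 1; ring⟩

/-- a multiplicative property which holds for the largest conjugate holds for all -/
theorem all {Γ : Type} [LinearOrderedCommGroupWithZero Γ] (w : Valuation Ω Γ) (P : Ω → Prop)
    (pY : ∀ a ∈ Y, a ≠ 0 → P a) (pm : ∀ a b, P a → P b → P (a * b))
    (pi : ∀ a, a ≠ 0 → P a → P a⁻¹)
    (top : ∀ a b c, S3 Y a b c → a ≠ 0 → w b ≤ w a → w c ≤ w a → P a)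
    (hx : x ≠ 0) (hy : y ≠ 0) (hz : z ≠ 0) : P x := by
  have bot : ∀ a b c, S3 Y a b c → a ≠ 0 → b ≠ 0 → c ≠ 0 → w a ≤ w b → w a ≤ w c → P a := by
    intro a b c s ha hb hc e f
    have p0 : 0 < w a := zero_lt_iff.2 ((w.ne_zero_iff).2 ha)
    have := pi _ (inv_ne_zero ha) (top _ _ _ (s.inv ha hb hc) (inv_ne_zero ha)
      (by rw [map_inv₀, map_inv₀]; exact inv_anti₀ p0 e)
      (by rw [map_inv₀, map_inv₀]; exact inv_anti₀ p0 f))
    rwa [inv_inv] at this
  have mid : ∀ a b c, S3 Y a b c → a ≠ 0 → b ≠ 0 → c ≠ 0 → w b ≤ w a → w a ≤ w c → P a := by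
    intro a b c s ha hb hc e f
    have := pm _ _ (pm _ _ (pY _ s.e3 (mul_ne_zero (mul_ne_zero ha hb) hc))
      (pi _ hb (bot _ _ _ s.swap hb ha hc e (e.trans f))))
      (pi _ hc (top _ _ _ s.swap'.swap hc f (e.trans f)))
    convert this using 1
    field_simp
  rcases le_total (w y) (w x) with e | e <;> rcases le_total (w z) (w x) with f | f
  · exact top _ _ _ h hx e f
  · exact mid _ _ _ h hx hy hz e f
  · exact mid _ _ _ h.swap' hx hz hy f e
  · exact bot _ _ _ h hx hy hz e f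

end S3

section
variable {Ω Γ : Type} [Field Ω] [LinearOrderedCommGroupWithZero Γ] {w : Valuation Ω Γ}
  {d : Ω →+ Ω} (hd : ∀ x y, d (x * y) = x * d y + y * d x)
include hd

theorem dl_mul {c x y : Ω} (a : w (c * d x) ≤ w x) (b : w (c * d y) ≤ w y) :
    w (c * d (x * y)) ≤ w (x * y) := by
  rw [show c * d (x * y) = x * (c * d y) + (c * d x) * y by rw [hd]; ring]
  refine w.map_add_le ?_ ?_
  · rw [w.map_mul x, w.map_mul x]
    gcongr
  · rw [w.map_mul x, w.map_mul _ y]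
    gcongr

theorem dl_inv {c x : Ω} (hx : x ≠ 0) (a : w (c * d x) ≤ w x) : w (c * d x⁻¹) ≤ w x⁻¹ := by
  have e0 : d 1 = 0 := by
    have := hd 1 1
    rw [mul_one, one_mul] at this
    exact left_eq_add.1 this
  have e := hd x x⁻¹
  rw [mul_inv_cancel₀ hx, e0] at e
  rw [show c * d x⁻¹ = -(c * d x * x⁻¹ * x⁻¹) by
    field_simp at e ⊢; linear_combination -c * e, w.map_neg, w.map_mul, w.map_mul]
  calc _ ≤ w x * w x⁻¹ * w x⁻¹ := by gcongr
    _ = w x⁻¹ := by rw [← w.map_mul x, mul_inv_cancel₀ hx, w.map_one, one_mul]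

theorem dl_root {c x y : Ω} {n : Ω} (e : d (y * x) = n * y * d x) (hy : x ≠ 0 → y ≠ 0)
    (a : w (c * d (y * x)) ≤ w (y * x)) : w (n * c * d x) ≤ w x := by
  by_cases hx : x = 0
  · simp [hx]
  rw [e, show c * (n * y * d x) = y * (n * c * d x) by ring, w.map_mul y, w.map_mul y] at a
  exact le_of_mul_le_mul_left a (zero_lt_iff.2 ((w.ne_zero_iff).2 (hy hx)))

variable (hz : ∀ n : ℤ, w (n : Ω) ≤ 1) {Y : Subfield Ω} (hY : ∀ y ∈ Y, w (d y) ≤ w y)
include hz hY

theorem dl_mem (n : ℤ) {y : Ω} (h : y ∈ Y) : w (n * d y) ≤ w y := by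
  rw [w.map_mul]
  exact (mul_le_of_le_one_left' (hz n)).trans (hY y h)

theorem quad_max {x y : Ω} (a : x + y ∈ Y) (b : x * y ∈ Y) : w (4 * d x) ≤ max (w x) (w y) := by
  have s : (x - y) * (x - y) ∈ Y := by
    convert sub_mem (mul_mem a a) (add_mem (add_mem b b) (add_mem b b)) using 1
    ring
  have s1 := dl_root hd (w := w) (c := 1) (n := 2) (x := x - y) (y := x - y) (by rw [hd]; ring) id
    (by rw [one_mul]; exact hY _ s)
  have s2 := dl_mem hd hz hY 2 a
  rw [show 4 * d x = ((2 : ℤ) : Ω) * d (x + y) + 2 * 1 * d (x - y) by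
    rw [map_add, map_sub]; push_cast; ring]
  exact w.map_add_le (s2.trans (w.map_add x y)) (s1.trans (w.map_sub x y))

theorem quad {x y : Ω} (a : x + y ∈ Y) (b : x * y ∈ Y) : w (4 * d x) ≤ w x := by
  rcases le_or_gt (w y) (w x) with e | e
  · simpa [e] using quad_max hd hz hY a b
  have y0 : y ≠ 0 := fun c => by simp [c] at e
  have s := quad_max hd hz hY (x := y) (y := x) (by rwa [add_comm]) (by rwa [mul_comm])
  rw [max_eq_left e.le] at s
  have := dl_mul hd (c := 4) (x := x * y) (by exact_mod_cast dl_mem hd hz hY 4 b) (dl_inv hd y0 s)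
  rwa [mul_inv_cancel_right₀ y0] at this

theorem cub_top {ζ : Ω} (hζ : ζ ^ 2 + ζ + 1 = 0) {x y z : Ω} (h : S3 Y x y z) (e : w y ≤ w x)
    (f : w z ≤ w x) : w (36 * d x) ≤ w x := by
  have z3 : ζ ^ 3 = 1 := by linear_combination (ζ - 1) * hζ
  have z1 : w ζ ≤ 1 := by
    have := congrArg w z3
    rw [map_pow, map_one] at this
    exact (pow_eq_one_iff_left (by norm_num)).1 this |>.le
  have z2 : w (ζ ^ 2) ≤ 1 := by
    rw [map_pow]
    exact pow_le_one' z1 2
  have key : ∀ y z, S3 Y x y z → w y ≤ w x → w z ≤ w x →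
      w (12 * d (x + ζ * y + ζ ^ 2 * z)) ≤ w x := by
    intro y z h e f
    have c : ∀ n : ℤ, (n : Ω) ∈ Y := fun n => intCast_mem Y n
    have s := quad hd hz hY (x := (x + ζ * y + ζ ^ 2 * z) ^ 2 * (x + ζ * y + ζ ^ 2 * z))
      (y := (x + ζ ^ 2 * y + ζ * z) ^ 3) (by
        convert add_mem (sub_mem (mul_mem (c 2) (pow_mem h.e1 3))
          (mul_mem (c 9) (mul_mem h.e1 h.e2))) (mul_mem (c 27) h.e3) using 1
        push_cast
        grind) (by
        convert pow_mem (sub_mem (pow_mem h.e1 2) (mul_mem (c 3) h.e2)) 3 using 1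
        rw [← pow_succ, ← mul_pow]
        congr 1
        push_cast
        grind)
    have t := dl_root hd (n := 3) (by rw [hd, pow_two, hd]; ring) (fun a => pow_ne_zero 2 a) s
    rw [show (3 * 4 : Ω) = 12 by norm_num] at t
    refine t.trans (w.map_add_le (w.map_add_le le_rfl ?_) ?_) <;> rw [w.map_mul]
    · exact (mul_le_of_le_one_left' z1).trans e
    · exact (mul_le_of_le_one_left' z2).trans f
  have s0 := dl_mem hd hz hY 12 h.e1
  have e0 : x + x + x = (x + y + z) + (x + ζ * y + ζ ^ 2 * z) + (x + ζ * z + ζ ^ 2 * y) := by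
    linear_combination (-y - z) * hζ
  rw [show 36 * d x = 12 * d (x + x + x) by rw [map_add, map_add]; ring, e0, map_add d,
    map_add d (x + y + z), mul_add, mul_add]
  exact w.map_add_le (w.map_add_le (by
    simpa using s0.trans (w.map_add_le (w.map_add_le le_rfl e) f)) (key y z h e f))
    (key z y h.swap' f e)

/-- the logarithmic derivative of one of three conjugates -/
theorem t3 {ζ : Ω} (hζ : ζ ^ 2 + ζ + 1 = 0) {x y z : Ω} (h : S3 Y x y z) (x0 : x ≠ 0)
    (y0 : y ≠ 0) (z0 : z ≠ 0) : w (36 * d x) ≤ w x :=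
  h.all w (fun a => w (36 * d a) ≤ w a) (fun a ha _ => by simpa using dl_mem hd hz hY 36 ha)
    (fun _ _ => dl_mul hd) (fun _ => dl_inv hd) (fun _ _ _ s _ => cub_top hd hz hY hζ s) x0 y0 z0

end

/-- the value of one of three conjugates is the value of a constant -/
theorem cv3 {k Ω Γ : Type} [Field k] [IsAlgClosed k] [Field Ω] [LinearOrderedCommGroupWithZero Γ]
    (w : Valuation Ω Γ) (φ : k →+* Ω) {Y : Subfield Ω}
    (hY : ∀ y ∈ Y, y ≠ 0 → ∃ a : k, w (φ a) = w y) {x y z : Ω} (h : S3 Y x y z) (x0 : x ≠ 0)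
    (y0 : y ≠ 0) (z0 : z ≠ 0) : ∃ a : k, w (φ a) = w x := by
  refine h.all w (fun a => ∃ b : k, w (φ b) = w a) hY
    (fun _ _ ⟨a, ha⟩ ⟨b, hb⟩ => ⟨a * b, by rw [map_mul, map_mul, map_mul, ha, hb]⟩)
    (fun _ _ ⟨a, ha⟩ => ⟨a⁻¹, by rw [map_inv₀, map_inv₀, map_inv₀, ha]⟩) ?_ x0 y0 z0
  intro a b c s a0 e f
  have p0 : 0 < w a := zero_lt_iff.2 ((w.ne_zero_iff).2 a0)
  have rt : ∀ (n : ℕ) (u : Ω), u ∈ Y → w u = w a ^ (n + 1) → ∃ b : k, w (φ b) = w a := by
    intro n u hu q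
    obtain ⟨t, ht⟩ := hY u hu ((w.ne_zero_iff).1 (q ▸ pow_ne_zero _ p0.ne'))
    obtain ⟨r, rfl⟩ := IsAlgClosed.exists_pow_nat_eq t (Nat.succ_pos n)
    rw [map_pow, map_pow, q] at ht
    exact ⟨r, (pow_left_inj₀ zero_le' zero_le' (Nat.succ_ne_zero n)).1 ht⟩
  have two : ∀ b c, S3 Y a b c → w b = w a → w c < w a → ∃ b : k, w (φ b) = w a := by
    intro b c s e f
    refine rt 1 _ s.e2 ?_
    have q : w (a * b) = w a ^ (1 + 1) := by rw [w.map_mul, e]; exact (sq _).symm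
    rw [add_assoc, w.map_add_eq_of_lt_left, q]
    rw [← add_mul, w.map_mul, w.map_mul, e]
    exact mul_lt_mul_of_le_of_lt_of_nonneg_of_pos (w.map_add_le le_rfl e.le) f zero_le' p0
  rcases e.eq_or_lt with e | e <;> rcases f.eq_or_lt with f | f
  · exact rt 2 _ s.e3 (by rw [w.map_mul, w.map_mul, e, f, pow_succ, sq])
  · exact two _ _ s e f
  · exact two _ _ s.swap' f e
  · refine rt 0 _ s.e1 ?_
    rw [add_assoc, w.map_add_eq_of_lt_left (w.map_add_lt e f), zero_add, pow_one]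

end Vale.Agent.P027M.N
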