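import Vale.Agent.P027M.N.Defs
import Vale.Agent.P027M.N.T3

/-! # P027M, block INT: integrality -/

set_option linter.all false

open Polynomial
open scoped PowerSeries NNReal

noncomputable section

namespace Vale.Agent.P027M.N

theorem s3_of_coeff {R Ω : Type} [CommRing R] [Field Ω] (φ : R →+* Ω) {Y : Subfield Ω}
    {m : Fin 3 → R} (h : ∀ n, φ ((∏ a, (X - C (m a))).coeff n) ∈ Y) :
    S3 Y (φ (m 0)) (φ (m 1)) (φ (m 2)) := by
  have e : ∏ a, (X - C (m a)) = X ^ 3 - C (m 0 + m 1 + m 2) * X ^ 2 +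
      C (m 0 * m 1 + m 0 * m 2 + m 1 * m 2) * X ^ 1 - C (m 0 * m 1 * m 2) * X ^ 0 := by
    simp only [Fin.prod_univ_three, map_add, map_mul]
    ring
  have h0 := h 0
  have h1 := h 1
  have h2 := h 2
  simp only [e, coeff_sub, coeff_add, coeff_C_mul, coeff_X_pow] at h0 h1 h2
  norm_num at h0 h1 h2
  exact ⟨by simpa using neg_mem h2, by simpa using h1, by simpa using h0⟩

theorem int_of (hG : GAUSS) (hL : LEIB) : INT := by
  intro k _ _ _ v e1 e2 e3 m0 s h m w j Bd hz _ hs sol bd fr hB n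
  obtain ⟨W, Y, g1, g2, g3, g4, g5, g6⟩ := hG k v hz
  set φ : k⟦X⟧ →+* LaurentSeries k := HahnSeries.ofPowerSeries ℤ k with hφ
  set c : k →+* LaurentSeries k := HahnSeries.C with hc
  haveI : CharZero (LaurentSeries k) := c.charZero_iff c.injective |>.1 inferInstance
  let d : LaurentSeries k →+ LaurentSeries k := AddMonoidHom.mk' thL thL_add
  have hd : ∀ x y, d (x * y) = x * d y + y * d x := hL k
  have dφ : ∀ f, d (φ f) = φ (B.th f) := thL_coe
  have dc : ∀ a, d (c a) = 0 := thL_C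
  have cφ : ∀ a, φ (PowerSeries.C a) = c a := fun a => HahnSeries.ofPowerSeries_C a
  have hz' : ∀ n : ℤ, W.valuation (n : LaurentSeries k) ≤ 1 := fun n =>
    (W.valuation_le_one_iff _).2 (intCast_mem W n)
  obtain ⟨ζ, hζ⟩ : ∃ ζ : k, ζ ^ 2 + ζ + 1 = 0 := by
    obtain ⟨t, ht⟩ := IsAlgClosed.exists_pow_nat_eq (-3 : k) two_pos
    exact ⟨(t - 1) / 2, by linear_combination ht / 4⟩
  have hζ' : c ζ ^ 2 + c ζ + 1 = 0 := by simpa using congrArg c hζ
  have s3 := s3_of_coeff φ (Y := Y) fun n => g3 _ (fr n)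
  have wi : ∀ a, φ (w a) * φ (w a)⁻¹ = 1 := fun a => by
    rw [← map_mul, PowerSeries.mul_inv_cancel _ (sol.w_zero a ▸ hs a), map_one]
  have w0 : ∀ a, φ (w a) ≠ 0 := fun a => left_ne_zero_of_mul_eq_one (wi a)
  have sq : ∀ a, φ (w a) ^ 2 = φ (m a) * (φ (m a) ^ 2 - c e1) * (φ (m a) ^ 2 - c e2) *
      (φ (m a) ^ 2 - c e3) := fun a => by
    rw [← map_pow, sol.sq a]
    simp only [fE, map_mul, map_sub, map_pow, aeval_X, aeval_C, ← cφ]
    rfl
  have nz : ∀ a, ∀ e ∈ [0, e1, e2, e3], φ (m a) ^ 2 - c e ≠ 0 := fun a => by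
    have := sq a ▸ pow_ne_zero 2 (w0 a)
    simp only [ne_eq, mul_eq_zero, not_or] at this
    simp only [List.forall_mem_cons, map_zero, sub_zero]
    exact ⟨pow_ne_zero 2 this.1.1.1, this.1.1.2, this.1.2, this.2, by simp⟩
  have pt : ∀ a, ∀ e ∈ [0, e1, e2, e3], ∃ t : k,
      W.valuation (c t) = W.valuation (φ (m a) ^ 2 - c e) ∧
      W.valuation (72 * φ (m a) * φ (B.th (m a))) ≤ W.valuation (c t) := by
    intro a e he
    have t := s3.sq.sub (g2 e)
    have n0 := nz 0 e he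
    have n1 := nz 1 e he
    have n2 := nz 2 e he
    have : (∃ t : k, W.valuation (c t) = W.valuation (φ (m a) ^ 2 - c e)) ∧
        W.valuation (36 * d (φ (m a) ^ 2 - c e)) ≤ W.valuation (φ (m a) ^ 2 - c e) := by
      fin_cases a
      · exact ⟨cv3 _ c g4 t n0 n1 n2, t3 hd hz' g5 hζ' t n0 n1 n2⟩
      · exact ⟨cv3 _ c g4 t.swap n1 n0 n2, t3 hd hz' g5 hζ' t.swap n1 n0 n2⟩
      · exact ⟨cv3 _ c g4 t.swap'.swap n2 n0 n1, t3 hd hz' g5 hζ' t.swap'.swap n2 n0 n1⟩
    obtain ⟨⟨t, ht⟩, b⟩ := this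
    refine ⟨t, ht, ?_⟩
    rw [ht]
    convert b using 2
    rw [map_sub, dc, pow_two, hd, dφ]
    ring
  have tri : ∀ {a b b' : k}, W.valuation (c a) ≤ max (W.valuation (c b)) (W.valuation (c b')) →
      v a ≤ max (v b) (v b') := fun e =>
    le_max_iff.2 ((le_max_iff.1 e).imp (g1 _ _).1 (g1 _ _).1)
  have one : ∀ a, W.valuation (c (72 * PowerSeries.coeff n (h j))) ≤
      W.valuation (72 * (φ (m a) ^ (j : ℕ) * φ (B.th (m a)) * φ (w a)⁻¹)) →
      v (72 * PowerSeries.coeff n (h j)) ^ 4 ≤ Bd := by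
    intro a le
    obtain ⟨t0, a0, b0⟩ := pt a 0 (by simp)
    obtain ⟨t1, a1, b1⟩ := pt a e1 (by simp)
    obtain ⟨t2, a2, b2⟩ := pt a e2 (by simp)
    obtain ⟨t3, a3, b3⟩ := pt a e3 (by simp)
    have ps : ∀ t e, e ∈ [0, e1, e2, e3] →
        W.valuation (c t) = W.valuation (φ (m a) ^ 2 - c e) → 0 < v t := fun t e he q =>
      zero_lt_iff.2 ((v.ne_zero_iff).2 fun z => nz a e he (by
        rw [z, map_zero, map_zero] at q
        exact (W.valuation.zero_iff).1 q.symm))
    have df : ∀ {e e' t t' : k}, W.valuation (c t) = W.valuation (φ (m a) ^ 2 - c e) →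
        W.valuation (c t') = W.valuation (φ (m a) ^ 2 - c e') →
        v (e' - e) ≤ max (v t) (v t') := fun {e e' t t'} q q' => tri (by
      rw [q, q', show c (e' - e) = (φ (m a) ^ 2 - c e) - (φ (m a) ^ 2 - c e') by
        rw [map_sub]; ring]
      exact W.valuation.map_sub _ _)
    have up : ∀ {e t : k}, W.valuation (c t) = W.valuation (φ (m a) ^ 2 - c e) →
        v t0 ≤ max (v t) (v e) := fun {e t} q => tri (by
      rw [q, a0, show φ (m a) ^ 2 - c 0 = (φ (m a) ^ 2 - c e) + c e by rw [map_zero]; ring]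
      exact W.valuation.map_add _ _)
    have p0 := ps _ _ (by simp) a0
    have p1 := ps _ _ (by simp) a1
    have p2 := ps _ _ (by simp) a2
    have p3 := ps _ _ (by simp) a3
    have U := hB _ _ _ _ ⟨p0, p1, p2, p3, by simpa using df a0 a1, by simpa using df a0 a2,
      by simpa using df a0 a3, by rw [max_comm]; exact df a2 a1, by rw [max_comm]; exact df a3 a1,
      by rw [max_comm]; exact df a3 a2, up a1, up a2, up a3⟩
    have key : ∀ t, W.valuation (72 * φ (m a) * φ (B.th (m a))) ≤ W.valuation (c t) →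
        v (72 * PowerSeries.coeff n (h j)) ^ 4 * (v t0 ^ 3 * (v t1 * v t2 * v t3) ^ 2) ≤
          v t ^ 4 * v t0 ^ (2 * (j : ℕ)) := by
      intro t b
      simp only [← map_pow, ← map_mul]
      rw [← g1]
      change W.valuation (c _) ≤ W.valuation (c _)
      have e : (72 * (φ (m a) ^ (j : ℕ) * φ (B.th (m a)) * φ (w a)⁻¹)) ^ 4 *
          ((φ (m a) ^ 2 - c 0) ^ 3 * ((φ (m a) ^ 2 - c e1) * (φ (m a) ^ 2 - c e2) *
            (φ (m a) ^ 2 - c e3)) ^ 2) = (72 * φ (m a) * φ (B.th (m a))) ^ 4 *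
              (φ (m a) ^ 2 - c 0) ^ (2 * (j : ℕ)) := by
        have q := wi a
        have r := sq a
        rw [map_zero, sub_zero, show (φ (m a) ^ 2) ^ (2 * (j : ℕ)) = (φ (m a) ^ (j : ℕ)) ^ 4 by ring]
        generalize φ (m a) ^ (j : ℕ) = J
        generalize φ (m a) ^ 2 - c e1 = z1 at r ⊢
        generalize φ (m a) ^ 2 - c e2 = z2 at r ⊢
        generalize φ (m a) ^ 2 - c e3 = z3 at r ⊢
        have r2 : (φ (m a) * z1 * z2 * z3) ^ 2 * φ (w a)⁻¹ ^ 4 = 1 := by
          rw [← r, ← pow_mul, ← mul_pow, q, one_pow]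
        linear_combination (72 * J * φ (B.th (m a)) * φ (m a)) ^ 4 * r2
      have e' := congrArg W.valuation e
      rw [map_mul c _ (_ * _), map_mul c (t ^ 4), map_pow c _ 4, map_pow c t]
      simp only [map_mul c (t0 ^ 3), map_pow c, map_mul c (t1 * t2), map_mul c t1]
      rw [W.valuation.map_mul _ (_ * _), W.valuation.map_mul (_ ^ 4) (_ ^ _)] at e' ⊢
      simp only [W.valuation.map_pow, W.valuation.map_mul (_ ^ 3) (_ ^ 2),
        W.valuation.map_mul (c t1 * c t2), W.valuation.map_mul (c t1),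
        W.valuation.map_mul (_ * _) (_ - c e3), W.valuation.map_mul (_ - c e1) (_ - c e2)] at e' ⊢
      rw [a0, a1, a2, a3]
      exact (mul_le_mul_left (pow_le_pow_left' le 4) _).trans
        (e'.le.trans (mul_le_mul_left (pow_le_pow_left' b 4) _))
    have k2 : v (72 * PowerSeries.coeff n (h j)) ^ 4 * (v t0 ^ 3 * (v t1 * v t2 * v t3) ^ 2) ≤
        min (min (v t0) (v t1)) (min (v t2) (v t3)) ^ 4 * v t0 ^ (2 * (j : ℕ)) := by
      rcases min_choice (min (v t0) (v t1)) (min (v t2) (v t3)) with e | e <;> rw [e]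
      · rcases min_choice (v t0) (v t1) with e | e <;> rw [e]
        exacts [key _ b0, key _ b1]
      · rcases min_choice (v t2) (v t3) with e | e <;> rw [e]
        exacts [key _ b2, key _ b3]
    rw [mul_assoc] at U
    exact le_of_mul_le_mul_right (k2.trans U) (by positivity)
  have sum : W.valuation (c (72 * PowerSeries.coeff n (h j))) ≤ W.valuation
      (∑ a, 72 * (φ (m a) ^ (j : ℕ) * φ (B.th (m a)) * φ (w a)⁻¹)) := by
    have e := congrArg φ (sol.ode j)
    simp only [map_sum, map_mul, map_pow] at e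
    rw [← Finset.mul_sum, e, map_mul c, map_ofNat, W.valuation.map_mul, W.valuation.map_mul]
    exact mul_le_mul_right (g6 _ bd n) _
  rw [Fin.sum_univ_three] at sum
  rcases le_max_iff.1 (sum.trans (W.valuation.map_add _ _)) with e | e
  · rcases le_max_iff.1 (e.trans (W.valuation.map_add _ _)) with e | e
    exacts [one 0 e, one 1 e]
  · exact one 2 e

end Vale.Agent.P027M.N
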