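import Vale.Agent.P027M.N.Defs

/-! # P027, route M, block INT + VAL : the local inequality -/

open Polynomial
open scoped PowerSeries NNReal

namespace Vale.Agent.P027M.N

open Vale.Agent.P022

/-- logarithms of the sizes: `A, B, S, U, H` of `a, b, a + b, a - b, 3 b - a`; `F` of `4`;
`E` of `12` -/
structure Sz (A B S U H F E : ℝ) : Prop where
  a : A ≤ 0
  b : B ≤ 0
  s : S ≤ 0
  u : U ≤ 0
  h : H ≤ 0
  f : E ≤ F
  f0 : F ≤ 0

theorem pl1 {A B S U H F E t μ D0 D1 D2 D3 : ℝ} (z : Sz A B S U H F E)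
    (c : (E ≤ B ∧ E ≤ S ∧ E ≤ U ∧ E ≤ H) ∨ (E ≤ A ∧ E ≤ S ∧ E ≤ U ∧ E ≤ H) ∨
      (E ≤ A ∧ E ≤ B ∧ E ≤ U ∧ E ≤ H) ∨ (E ≤ A ∧ E ≤ B ∧ E ≤ S ∧ E ≤ H) ∨
      (E ≤ A ∧ E ≤ B ∧ E ≤ S ∧ E ≤ U))
    (m0 : μ ≤ D0) (m1 : μ ≤ D1) (m2 : μ ≤ D2) (m3 : μ ≤ D3)
    (h01 : t + B + 2 * S ≤ D0 ∨ t + B + 2 * S ≤ D1)
    (h02 : t + A + H + S ≤ D0 ∨ t + A + H + S ≤ D2)
    (h03 : t + F + A + 2 * B ≤ D0 ∨ t + F + A + 2 * B ≤ D3)
    (h12 : t + S + 2 * U ≤ D1 ∨ t + S + 2 * U ≤ D2)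
    (h13 : t + B + 2 * U ≤ D1 ∨ t + B + 2 * U ≤ D3)
    (h23 : t + A + 2 * U ≤ D2 ∨ t + A + 2 * U ≤ D3) :
    4 * μ + 2 * D0 + 3 * t + A + S + B + 4 * U + 12 * E ≤ 3 * D0 + 2 * (D1 + D2 + D3) := by
  obtain ⟨a, b, s, u, h, f, f0⟩ := z
  rcases c with ⟨c1, c2, c3, c4⟩ | ⟨c1, c2, c3, c4⟩ | ⟨c1, c2, c3, c4⟩ | ⟨c1, c2, c3, c4⟩ |
    ⟨c1, c2, c3, c4⟩ <;> rcases h01 with h01 | h01 <;> rcases h02 with h02 | h02 <;>
    rcases h03 with h03 | h03 <;> rcases h12 with h12 | h12 <;> rcases h13 with h13 | h13 <;>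
    rcases h23 with h23 | h23 <;> linarith

theorem pl0 {A B S U H F E t μ D0 D1 D2 D3 : ℝ} (z : Sz A B S U H F E)
    (c : (E ≤ A ∧ E ≤ S ∧ E ≤ U ∧ E ≤ H) ∨
      (E ≤ A ∧ E ≤ B ∧ E ≤ U ∧ E ≤ H) ∨ (E ≤ A ∧ E ≤ B ∧ E ≤ S ∧ E ≤ H) ∨
      (E ≤ A ∧ E ≤ B ∧ E ≤ S ∧ E ≤ U))
    (m0 : μ ≤ D0) (m1 : μ ≤ D1) (m2 : μ ≤ D2) (m3 : μ ≤ D3)
    (h01 : t + B + 2 * S ≤ D0 ∨ t + B + 2 * S ≤ D1)
    (h02 : t + A + H + S ≤ D0 ∨ t + A + H + S ≤ D2)
    (h03 : t + F + A + 2 * B ≤ D0 ∨ t + F + A + 2 * B ≤ D3)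
    (h12 : t + S + 2 * U ≤ D1 ∨ t + S + 2 * U ≤ D2)
    (h13 : t + B + 2 * U ≤ D1 ∨ t + B + 2 * U ≤ D3)
    (h23 : t + A + 2 * U ≤ D2 ∨ t + A + 2 * U ≤ D3) :
    4 * μ + 5 * t + H + 4 * S + 4 * B + 4 * U + 20 * E ≤ 3 * D0 + 2 * (D1 + D2 + D3) := by
  obtain ⟨a, b, s, u, h, f, f0⟩ := z
  rcases c with ⟨c1, c2, c3, c4⟩ | ⟨c1, c2, c3, c4⟩ | ⟨c1, c2, c3, c4⟩ |
    ⟨c1, c2, c3, c4⟩ <;> rcases h01 with h01 | h01 <;> rcases h02 with h02 | h02 <;>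
    rcases h03 with h03 | h03 <;> rcases h12 with h12 | h12 <;> rcases h13 with h13 | h13 <;>
    rcases h23 with h23 | h23 <;> linarith

theorem pl2 {A B S U H F E t μ D0 D1 D2 D3 : ℝ} (z : Sz A B S U H F E)
    (c : E ≤ B ∧ E ≤ S ∧ E ≤ U ∧ E ≤ H)
    (m1 : μ ≤ D1) (m2 : μ ≤ D2) (m3 : μ ≤ D3)
    (h01 : t + B + 2 * S ≤ D0 ∨ t + B + 2 * S ≤ D1)
    (h12 : t + S + 2 * U ≤ D1 ∨ t + S + 2 * U ≤ D2)
    (h13 : t + B + 2 * U ≤ D1 ∨ t + B + 2 * U ≤ D3)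
    (u2 : D0 ≤ D2 ∨ D0 ≤ t + A + H + S) (u3 : D0 ≤ D3 ∨ D0 ≤ t + F + A + 2 * B)
    (h23 : t + A + 2 * U ≤ D2 ∨ t + A + 2 * U ≤ D3)
    (u1 : D0 ≤ D1 ∨ D0 ≤ t + B + 2 * S) :
    4 * μ + 4 * D0 + t + 12 * E ≤ 3 * D0 + 2 * (D1 + D2 + D3) := by
  obtain ⟨a, b, s, u, h, f, f0⟩ := z
  obtain ⟨c1, c2, c3, c4⟩ := c
  rcases h01 with h01 | h01 <;> rcases u2 with h02 | h02 <;>
    rcases u3 with h03 | h03 <;> rcases h12 with h12 | h12 <;> rcases h13 with h13 | h13 <;>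
    rcases h23 with h23 | h23 <;> rcases u1 with u1 | u1 <;> linarith

/-- logarithm of a nonnegative real -/
noncomputable def lg (x : ℝ≥0) : ℝ := Real.log x

theorem lg_mul {x y : ℝ≥0} (hx : 0 < x) (hy : 0 < y) : lg (x * y) = lg x + lg y := by
  unfold lg
  rw [NNReal.coe_mul, Real.log_mul (by exact_mod_cast hx.ne') (by exact_mod_cast hy.ne')]

theorem lg_pow (x : ℝ≥0) (n : ℕ) : lg (x ^ n) = n * lg x := by
  unfold lg
  rw [NNReal.coe_pow, Real.log_pow]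

theorem lg_inv (x : ℝ≥0) : lg x⁻¹ = - lg x := by
  unfold lg
  rw [NNReal.coe_inv, Real.log_inv]

theorem lg_le {x y : ℝ≥0} (hx : 0 < x) (h : x ≤ y) : lg x ≤ lg y :=
  Real.log_le_log (by exact_mod_cast hx) (by exact_mod_cast h)

theorem le_of_lg {x y : ℝ≥0} (hy : 0 < y) (h : lg x ≤ lg y) : x ≤ y := by
  rcases eq_or_lt_of_le (show 0 ≤ x from zero_le) with h0 | h0
  · rw [← h0]; exact zero_le
  · have := (Real.log_le_log_iff (by exact_mod_cast h0) (by exact_mod_cast hy)).1 h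
    exact_mod_cast this

theorem lg_max {x y z : ℝ≥0} (hx : 0 < x) (h : x ≤ max y z) : lg x ≤ lg y ∨ lg x ≤ lg z :=
  (le_max_iff.1 h).imp (lg_le hx) (lg_le hx)

theorem lg_nonpos {x : ℝ≥0} (hx : 0 < x) (h : x ≤ 1) : lg x ≤ 0 := by
  have := lg_le hx h
  simpa [lg] using this

section
variable {k : Type*} [Field k] [CharZero k] (v : Valuation k ℝ≥0)

omit [CharZero k] in
theorem vpos {x : k} (hx : x ≠ 0) : 0 < v x := (v.pos_iff).2 hx

theorem vint {n : ℤ} (hn : n ≠ 0) : 0 < v (n : k) := vpos v (by exact_mod_cast hn)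

theorem two_forms (hv : ∀ n : ℤ, v (n : k) ≤ 1) (f1 f2 p q : ℤ) (h : p * f1 + q * f2 = 12) :
    lg (v (12 : k)) ≤ lg (v (f1 : k)) ∨ lg (v (12 : k)) ≤ lg (v (f2 : k)) := by
  have h0 : 0 < v (12 : k) := vpos v (by norm_num)
  apply lg_max h0
  have h1 : (12 : k) = (p : k) * f1 + (q : k) * f2 := by exact_mod_cast h.symm
  rw [h1]
  refine (v.map_add _ _).trans (max_le_max ?_ ?_)
  · rw [map_mul]; exact mul_le_of_le_one_left' (hv p)
  · rw [map_mul]; exact mul_le_of_le_one_left' (hv q)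

end

theorem five {A B S U H E : ℝ} (h1 : E ≤ A ∨ E ≤ B) (h2 : E ≤ A ∨ E ≤ S) (h3 : E ≤ A ∨ E ≤ U)
    (h4 : E ≤ A ∨ E ≤ H) (h5 : E ≤ B ∨ E ≤ S) (h6 : E ≤ B ∨ E ≤ U) (h7 : E ≤ B ∨ E ≤ H)
    (h8 : E ≤ S ∨ E ≤ U) (h9 : E ≤ S ∨ E ≤ H) (h10 : E ≤ U ∨ E ≤ H) :
    (E ≤ B ∧ E ≤ S ∧ E ≤ U ∧ E ≤ H) ∨ (E ≤ A ∧ E ≤ S ∧ E ≤ U ∧ E ≤ H) ∨
      (E ≤ A ∧ E ≤ B ∧ E ≤ U ∧ E ≤ H) ∨ (E ≤ A ∧ E ≤ B ∧ E ≤ S ∧ E ≤ H) ∨
      (E ≤ A ∧ E ≤ B ∧ E ≤ S ∧ E ≤ U) := by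
  by_cases a : E ≤ A
  · by_cases b : E ≤ B
    · by_cases s : E ≤ S
      · by_cases u : E ≤ U
        · exact Or.inr (Or.inr (Or.inr (Or.inr ⟨a, b, s, u⟩)))
        · exact Or.inr (Or.inr (Or.inr (Or.inl ⟨a, b, s, h10.resolve_left u⟩)))
      · exact Or.inr (Or.inr (Or.inl ⟨a, b, h8.resolve_left s, h9.resolve_left s⟩))
    · exact Or.inr (Or.inl ⟨a, h5.resolve_left b, h6.resolve_left b, h7.resolve_left b⟩)
  · exact Or.inl ⟨h1.resolve_left a, h2.resolve_left a, h3.resolve_left a, h4.resolve_left a⟩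

theorem loc_of (hI : INT) : LOC := by
  refine ⟨48, ?_⟩
  intro g T m0 s h m w n0 n1 v hv g0 g1 g2 g3 hT hm0 hs hsol hBD hFr h2
  obtain ⟨a, ha⟩ : ∃ a : ℤ, a = g.num := ⟨_, rfl⟩
  obtain ⟨b, hb⟩ : ∃ b : ℤ, b = g.den := ⟨_, rfl⟩
  rw [← ha, ← hb]
  have hb0 : b ≠ 0 := by rw [hb]; exact_mod_cast g.den_nz
  have hbq : (b : ℚ) ≠ 0 := by exact_mod_cast hb0
  have hg : g = (a : ℚ) / b := by rw [ha, hb]; exact (Rat.num_div_den g).symm
  have ha0 : a ≠ 0 := by rw [ha]; exact Rat.num_ne_zero.2 g0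
  have hs0 : a + b ≠ 0 := by
    intro e
    apply g1
    have : (a : ℚ) + b = 0 := by exact_mod_cast e
    rw [hg]; field_simp; linarith
  have hu0 : a - b ≠ 0 := by
    intro e
    apply g2
    have : (a : ℚ) - b = 0 := by exact_mod_cast e
    rw [hg]; field_simp; linarith
  have hh0 : 3 * b - a ≠ 0 := by
    intro e
    apply g3
    have : 3 * (b : ℚ) - a = 0 := by exact_mod_cast e
    rw [hg]; field_simp; linarith
  obtain ⟨x, y, hxy⟩ : IsCoprime a b := by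
    rw [ha, hb]
    exact Int.isCoprime_iff_gcd_eq_one.2 g.reduced
  have hbk : (b : Qb) ≠ 0 := by exact_mod_cast hb0
  have hsk : (a : Qb) + b ≠ 0 := by exact_mod_cast hs0
  have hsq : (a : ℚ) + b ≠ 0 := by exact_mod_cast hs0
  obtain ⟨t, ht⟩ : ∃ t : Qb, T = t * ((b : Qb) * ((a + b : ℤ) : Qb) ^ 2) :=
    ⟨T / ((b : Qb) * ((a + b : ℤ) : Qb) ^ 2), by push_cast; field_simp⟩
  have ht0 : t ≠ 0 := by
    rintro rfl
    exact hT (by rw [ht, zero_mul])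
  have hg1 : (a : ℚ) / b + 1 = (a + b) / b := by field_simp
  have e2 : ((c3 g : ℚ) : Qb) * T =
      t * ((a : Qb) * ((3 * b - a : ℤ) : Qb) * ((a + b : ℤ) : Qb)) := by
    have : c3 g = (a : ℚ) * (3 * b - a) / (b * (a + b)) := by
      rw [c3, hg, hg1]; field_simp
    rw [this, ht]; push_cast; field_simp
  have e3 : ((d2 g : ℚ) : Qb) * T = t * (4 * (a : Qb) * (b : Qb) ^ 2) := by
    have : d2 g = 4 * (a : ℚ) * b / (a + b) ^ 2 := by
      rw [d2, hg, hg1]; field_simp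
    rw [this, ht]; push_cast; field_simp
  have e4 : (((3 - g) / (g + 1) : ℚ) : Qb) * T =
      t * (((3 * b - a : ℤ) : Qb) * ((a + b : ℤ) : Qb) * (b : Qb)) := by
    have : (3 - g) / (g + 1) = (3 * (b : ℚ) - a) / (a + b) := by
      rw [hg, hg1]; field_simp
    rw [this, ht]; push_cast; field_simp
  have e12 : T - ((c3 g : ℚ) : Qb) * T =
      t * (((a + b : ℤ) : Qb) * ((a - b : ℤ) : Qb) ^ 2) := by
    rw [e2, ht]; push_cast; ring
  have e13 : T - ((d2 g : ℚ) : Qb) * T = t * ((b : Qb) * ((a - b : ℤ) : Qb) ^ 2) := by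
    rw [e3, ht]; push_cast; ring
  have e23 : ((c3 g : ℚ) : Qb) * T - ((d2 g : ℚ) : Qb) * T =
      -(t * ((a : Qb) * ((a - b : ℤ) : Qb) ^ 2)) := by
    rw [e2, e3]; push_cast; ring
  have pA := vint v ha0
  have pB := vint v hb0
  have pS := vint v hs0
  have pU := vint v hu0
  have pH := vint v hh0
  have pT := vpos v ht0
  have pE : 0 < v (12 : Qb) := vpos v (by norm_num)
  have pF : 0 < v (4 : Qb) := vpos v (by norm_num)
  have vE : v (12 : Qb) ≤ 1 := by exact_mod_cast hv 12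
  have z : Sz (lg (v (a : Qb))) (lg (v (b : Qb))) (lg (v ((a + b : ℤ) : Qb)))
      (lg (v ((a - b : ℤ) : Qb))) (lg (v ((3 * b - a : ℤ) : Qb))) (lg (v (4 : Qb)))
      (lg (v (12 : Qb))) := by
    refine ⟨lg_nonpos pA (hv _), lg_nonpos pB (hv _), lg_nonpos pS (hv _), lg_nonpos pU (hv _),
      lg_nonpos pH (hv _), lg_le pE ?_, lg_nonpos pF (by exact_mod_cast hv 4)⟩
    have : (12 : Qb) = ((3 : ℤ) : Qb) * 4 := by norm_num
    rw [this, map_mul]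
    exact mul_le_of_le_one_left' (hv 3)
  have c := five
    (two_forms v hv a b (12 * x) (12 * y) (by linear_combination 12 * hxy))
    (two_forms v hv a (a + b) (12 * (x - y)) (12 * y) (by linear_combination 12 * hxy))
    (two_forms v hv a (a - b) (12 * (x + y)) (-12 * y) (by linear_combination 12 * hxy))
    (two_forms v hv a (3 * b - a) (12 * x + 4 * y) (4 * y) (by linear_combination 12 * hxy))
    (two_forms v hv b (a + b) (12 * (y - x)) (12 * x) (by linear_combination 12 * hxy))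
    (two_forms v hv b (a - b) (12 * (y + x)) (12 * x) (by linear_combination 12 * hxy))
    (two_forms v hv b (3 * b - a) (12 * y + 36 * x) (-12 * x) (by linear_combination 12 * hxy))
    (two_forms v hv (a + b) (a - b) (6 * x + 6 * y) (6 * x - 6 * y)
      (by linear_combination 12 * hxy))
    (two_forms v hv (a + b) (3 * b - a) (9 * x + 3 * y) (3 * y - 3 * x)
      (by linear_combination 12 * hxy))
    (two_forms v hv (a - b) (3 * b - a) (18 * x + 6 * y) (6 * x + 6 * y)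
      (by linear_combination 12 * hxy))
  obtain ⟨A, hA⟩ : ∃ A, lg (v (a : Qb)) = A := ⟨_, rfl⟩
  obtain ⟨B', hB⟩ : ∃ A, lg (v (b : Qb)) = A := ⟨_, rfl⟩
  obtain ⟨S, hS⟩ : ∃ A, lg (v ((a + b : ℤ) : Qb)) = A := ⟨_, rfl⟩
  obtain ⟨U, hU⟩ : ∃ A, lg (v ((a - b : ℤ) : Qb)) = A := ⟨_, rfl⟩
  obtain ⟨H, hH⟩ : ∃ A, lg (v ((3 * b - a : ℤ) : Qb)) = A := ⟨_, rfl⟩
  obtain ⟨F, hF⟩ : ∃ A, lg (v (4 : Qb)) = A := ⟨_, rfl⟩
  obtain ⟨E, hE⟩ : ∃ A, lg (v (12 : Qb)) = A := ⟨_, rfl⟩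
  obtain ⟨τ, hτ⟩ : ∃ A, lg (v t) = A := ⟨_, rfl⟩
  rw [hA, hB, hS, hU, hH, hE] at c
  rw [hA, hB, hS, hU, hH, hF, hE] at z
  have q1 : 0 < v T := vpos v hT
  have l1 : lg (v T) = τ + B' + 2 * S := by
    rw [ht, map_mul, map_mul, map_pow, lg_mul pT (by positivity), lg_mul pB (by positivity), lg_pow]
    simp only [Nat.cast_ofNat]; linarith
  have q2 : 0 < v (((c3 g : ℚ) : Qb) * T) := by rw [e2, map_mul, map_mul, map_mul]; positivity
  have l2 : lg (v (((c3 g : ℚ) : Qb) * T)) = τ + A + H + S := by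
    rw [e2, map_mul, map_mul, map_mul, lg_mul pT (by positivity), lg_mul (by positivity) pS,
      lg_mul pA pH]
    linarith
  have q3 : 0 < v (((d2 g : ℚ) : Qb) * T) := by
    rw [e3, map_mul, map_mul, map_mul, map_pow]; positivity
  have l3 : lg (v (((d2 g : ℚ) : Qb) * T)) = τ + F + A + 2 * B' := by
    rw [e3, map_mul, map_mul, map_mul, map_pow, lg_mul pT (by positivity),
      lg_mul (by positivity) (by positivity), lg_mul pF pA, lg_pow]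
    simp only [Nat.cast_ofNat]; linarith
  have q12 : 0 < v (T - ((c3 g : ℚ) : Qb) * T) := by
    rw [e12, map_mul, map_mul, map_pow]; positivity
  have l12 : lg (v (T - ((c3 g : ℚ) : Qb) * T)) = τ + S + 2 * U := by
    rw [e12, map_mul, map_mul, map_pow, lg_mul pT (by positivity), lg_mul pS (by positivity),
      lg_pow]
    simp only [Nat.cast_ofNat]; linarith
  have q13 : 0 < v (T - ((d2 g : ℚ) : Qb) * T) := by
    rw [e13, map_mul, map_mul, map_pow]; positivity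
  have l13 : lg (v (T - ((d2 g : ℚ) : Qb) * T)) = τ + B' + 2 * U := by
    rw [e13, map_mul, map_mul, map_pow, lg_mul pT (by positivity), lg_mul pB (by positivity),
      lg_pow]
    simp only [Nat.cast_ofNat]; linarith
  have q23 : 0 < v (((c3 g : ℚ) : Qb) * T - ((d2 g : ℚ) : Qb) * T) := by
    rw [e23, Valuation.map_neg, map_mul, map_mul, map_pow]; positivity
  have l23 : lg (v (((c3 g : ℚ) : Qb) * T - ((d2 g : ℚ) : Qb) * T)) = τ + A + 2 * U := by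
    rw [e23, Valuation.map_neg, map_mul, map_mul, map_pow, lg_mul pT (by positivity),
      lg_mul pA (by positivity), lg_pow]
    simp only [Nat.cast_ofNat]; linarith
  -- the general reduction
  have key : ∀ (j : Fin 3) (n : ℕ) (β : ℝ),
      (∀ μ D0 D1 D2 D3 : ℝ, μ ≤ D0 → μ ≤ D1 → μ ≤ D2 → μ ≤ D3 →
        (τ + B' + 2 * S ≤ D0 ∨ τ + B' + 2 * S ≤ D1) → (τ + A + H + S ≤ D0 ∨ τ + A + H + S ≤ D2) →
        (τ + F + A + 2 * B' ≤ D0 ∨ τ + F + A + 2 * B' ≤ D3) →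
        (τ + S + 2 * U ≤ D1 ∨ τ + S + 2 * U ≤ D2) → (τ + B' + 2 * U ≤ D1 ∨ τ + B' + 2 * U ≤ D3) →
        (τ + A + 2 * U ≤ D2 ∨ τ + A + 2 * U ≤ D3) → (D0 ≤ D1 ∨ D0 ≤ τ + B' + 2 * S) →
        (D0 ≤ D2 ∨ D0 ≤ τ + A + H + S) → (D0 ≤ D3 ∨ D0 ≤ τ + F + A + 2 * B') →
        4 * μ + 2 * ((j : ℕ) : ℝ) * D0 ≤ β + 3 * D0 + 2 * (D1 + D2 + D3)) →
      PowerSeries.coeff n (h j) ≠ 0 → 8 * E + 4 * lg (v (PowerSeries.coeff n (h j))) ≤ β := by
    intro j n β hβ hne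
    obtain ⟨Bd, hBd, lBd⟩ : ∃ Bd : ℝ≥0, 0 < Bd ∧ lg Bd = β :=
      ⟨⟨Real.exp β, (Real.exp_pos β).le⟩, Real.exp_pos β, Real.log_exp β⟩
    have h1 := hI Qb v T _ _ m0 s h m w j Bd hv hm0 hs hsol
      (hBD j) hFr ?_ n
    · have pc := vpos v hne
      have p72 : 0 < v (72 : Qb) := vpos v (by norm_num)
      rw [map_mul] at h1
      have h3 := lg_le (by positivity) h1
      rw [lBd, lg_pow, lg_mul p72 pc] at h3
      have h4 : v (12 : Qb) ^ 2 ≤ v (72 : Qb) := by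
        have : (12 : Qb) ^ 2 = ((2 : ℤ) : Qb) * 72 := by norm_num
        rw [← map_pow, this, map_mul]
        exact mul_le_of_le_one_left' (hv 2)
      have h5 := lg_le (by positivity) h4
      rw [lg_pow] at h5
      push_cast at h3 h5
      linarith
    · intro δ0 δ1 δ2 δ3 u
      have p0 := u.p0
      have p1 := u.p1
      have p2 := u.p2
      have p3 := u.p3
      have pm : 0 < min (min δ0 δ1) (min δ2 δ3) := lt_min (lt_min p0 p1) (lt_min p2 p3)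
      apply le_of_lg (by positivity)
      rw [lg_mul (by positivity) (by positivity), lg_mul (by positivity) (by positivity),
        lg_mul hBd (by positivity), lBd, lg_pow, lg_pow, lg_pow, lg_pow,
        lg_mul (by positivity) p3, lg_mul p1 p2]
      have := hβ (lg (min (min δ0 δ1) (min δ2 δ3))) (lg δ0) (lg δ1) (lg δ2) (lg δ3)
        (lg_le pm ((min_le_left _ _).trans (min_le_left _ _)))
        (lg_le pm ((min_le_left _ _).trans (min_le_right _ _)))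
        (lg_le pm ((min_le_right _ _).trans (min_le_left _ _)))
        (lg_le pm ((min_le_right _ _).trans (min_le_right _ _)))
        (l1 ▸ lg_max q1 u.h01) (l2 ▸ lg_max q2 u.h02) (l3 ▸ lg_max q3 u.h03)
        (l12 ▸ lg_max q12 u.h12) (l13 ▸ lg_max q13 u.h13) (l23 ▸ lg_max q23 u.h23)
        (l1 ▸ lg_max p0 u.u1) (l2 ▸ lg_max p0 u.u2) (l3 ▸ lg_max p0 u.u3)
      push_cast
      linarith
  by_cases hc0 : PowerSeries.coeff n0 (h 0) = 0
  · simp [hc0]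
  by_cases hc1 : PowerSeries.coeff n1 (h 1) = 0
  · simp [hc1]
  have pc0 := vpos v hc0
  have pc1 := vpos v hc1
  have k1 := key 1 n1 (-(3 * τ + A + S + B' + 4 * U + 12 * E)) (by
    intro μ D0 D1 D2 D3 m0 m1 m2 m3 h01 h02 h03 h12 h13 h23 _ _ _
    have := pl1 z c m0 m1 m2 m3 h01 h02 h03 h12 h13 h23
    simp only [Fin.val_one, Nat.cast_one]
    linarith) hc1
  have k0 : 8 * E + 4 * lg (v (PowerSeries.coeff n0 (h 0))) ≤
      -(5 * τ + H + 4 * S + 4 * B' + 4 * U + 20 * E) := by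
    rcases c with c | c
    · have e5 : PowerSeries.coeff n0 (h 2) =
          t * (((3 * b - a : ℤ) : Qb) * ((a + b : ℤ) : Qb) * (b : Qb)) *
            PowerSeries.coeff n0 (h 0) := by
        rw [h2, PowerSeries.coeff_C_mul, e4]
      have hne : PowerSeries.coeff n0 (h 2) ≠ 0 := by
        rw [← v.pos_iff, e5, map_mul, map_mul, map_mul, map_mul]; positivity
      have k2 := key 2 n0 (-(τ + 12 * E)) (by
        intro μ D0 D1 D2 D3 _ m1 m2 m3 h01 _ _ h12 h13 h23 u1 u2 u3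
        have := pl2 z c m1 m2 m3 h01 h12 h13 u2 u3 h23 u1
        simp only [Fin.val_two, Nat.cast_ofNat]
        linarith) hne
      rw [e5, map_mul, map_mul, map_mul, map_mul, lg_mul (by positivity) pc0,
        lg_mul pT (by positivity), lg_mul (by positivity) pB, lg_mul pH pS] at k2
      obtain ⟨c1, c2, c3, c4⟩ := c
      have := z.u
      have := z.f
      have := z.f0
      linarith
    · refine key 0 n0 _ ?_ hc0
      intro μ D0 D1 D2 D3 m0 m1 m2 m3 h01 h02 h03 h12 h13 h23 _ _ _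
      have := pl0 z c m0 m1 m2 m3 h01 h02 h03 h12 h13 h23
      simp only [Fin.val_zero, Nat.cast_zero]
      linarith
  rw [Int.cast_mul, Int.cast_mul, Int.cast_mul, Int.cast_pow, Int.cast_pow, Int.cast_pow]
  simp only [map_mul, map_pow]
  apply le_of_lg (by positivity)
  rw [lg_mul (by positivity) (by positivity), lg_mul (by positivity) (by positivity),
    lg_mul (by positivity) (by positivity), lg_mul (by positivity) (by positivity),
    lg_mul (by positivity) (by positivity), lg_pow, lg_pow, lg_pow, lg_pow, lg_pow,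
    lg_mul (by positivity) (by positivity), lg_mul pc0 pc1, lg_pow, l1]
  simp only [Nat.cast_ofNat]
  linarith

end Vale.Agent.P027M.N
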