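import Vale.Agent.P027M.N.Defs

/-! # P027, route M, rows N.val and N.ht : the product formula -/

set_option linter.all false

open Polynomial
open scoped NNReal

noncomputable section

namespace Vale.Agent.P027M.N

open Vale.Agent.P022

namespace Vl

theorem int_le {k : Type} [Field k] (v : Valuation k ℝ≥0) (n : ℤ) : v (n : k) ≤ 1 :=
  intCast_mem v.integer n

theorem ex_val (p : ℕ) (hp : p.Prime) : ∃ v : Valuation Qb ℝ≥0, v (p : Qb) < 1 := by
  haveI := Fact.mk hp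
  haveI : Algebra.IsAlgebraic ℚ Qb := AlgebraicClosure.isAlgebraic ℚ
  let φ : Qb →ₐ[ℚ] PadicAlgCl p := IsAlgClosed.lift
  refine ⟨(Valued.v (R := PadicAlgCl p)).comap (φ : Qb →+* PadicAlgCl p), ?_⟩
  rw [Valuation.comap_apply, map_natCast, PadicAlgCl.valuation_p, div_lt_one
    (by exact_mod_cast hp.pos)]
  exact_mod_cast hp.one_lt

theorem den_one {R : ℚ} (h : ∀ v : Valuation Qb ℝ≥0, v (R : Qb) ≤ 1) : R.den = 1 := by
  by_contra hc
  obtain ⟨p, hp, c, hc⟩ := Nat.exists_prime_and_dvd hc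
  obtain ⟨v, hv⟩ := ex_val p hp
  obtain ⟨s, t, e⟩ : IsCoprime R.num (R.den : ℤ) :=
    Int.isCoprime_iff_gcd_eq_one.2 (by simpa [Int.gcd] using R.reduced)
  have e1 : (R.num : Qb) = R * R.den := by exact_mod_cast (Rat.mul_den_eq_num R).symm
  have e2 : (1 : Qb) = (s * R + t) * (c : ℤ) * p := by
    have := congrArg (Int.cast : ℤ → Qb) e
    push_cast at this ⊢
    rw [e1, hc] at this
    push_cast at this
    linear_combination -this
  have e3 : v ((s * R + t) * (c : ℤ)) ≤ 1 := by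
    rw [map_mul]
    refine mul_le_one' (v.map_add_le ?_ (int_le v t)) (int_le v c)
    rw [map_mul]
    exact mul_le_one' (int_le v s) (h v)
  have e4 := congrArg v e2
  rw [map_one, map_mul] at e4
  exact absurd ((mul_le_of_le_one_left' e3).trans_lt hv) (by rw [← e4]; exact lt_irrefl _)

theorem ex_conj {i : Qb} (hi : i ^ 2 = -1) : ∃ c : GQ, c i = -i := by
  have pr : ∀ j : Qb, j ^ 2 = -1 → IsPrimitiveRoot j 4 := fun j hj => by
    have e : orderOf j = 2 ^ (1 + 1) := orderOf_eq_prime_pow (by rw [pow_one, hj]; norm_num)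
      (by rw [show 2 ^ (1 + 1) = 2 * 2 by norm_num, pow_mul, hj]; norm_num)
    exact (show orderOf j = 4 from e) ▸ IsPrimitiveRoot.orderOf j
  haveI : IsAlgClosure ℚ Qb := ⟨inferInstance, AlgebraicClosure.isAlgebraic ℚ⟩
  haveI : Normal ℚ Qb := IsAlgClosure.normal ℚ Qb
  exact IsConjRoot.exists_algEquiv (K := ℚ) ((cyclotomic_eq_minpoly_rat (pr (-i) (by
    rw [neg_sq, hi])) four_pos).symm.trans (cyclotomic_eq_minpoly_rat (pr i hi) four_pos))

end Vl

open Vl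

theorem val_of (h : LOC) : VAL := by
  obtain ⟨K, hK⟩ := h
  refine ⟨4 * 12 ^ K, by positivity, fun g A hg hP => ?_⟩
  obtain ⟨T, i, m0, s, h, m, w, n0, n1, x, y, T0, hi, hm, hs, sol, hb, hf, h2, hz, hxy, hA⟩ := hP
  obtain ⟨g1, g2⟩ := abs_lt.1 hg.real
  rw [g0] at g1 g2
  obtain ⟨c, hc⟩ := ex_conj hi
  have b0 : (0 : ℚ) < g.den := by exact_mod_cast g.pos
  have ab : (g.num : ℚ) = g * g.den := (Rat.mul_den_eq_num g).symm
  have L := fun v => hK g T m0 s h m w n0 n1 v (int_le v) (by linarith) (by linarith)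
    (by linarith) (by linarith) T0 hm hs sol hb hf h2
  rw [hz] at L
  have a1 : (g.den : ℤ) < g.num := by
    have : (g.den : ℚ) < g.num := by nlinarith
    exact_mod_cast this
  have a2 : g.num < 2 * (g.den : ℤ) := by
    have : (g.num : ℚ) < 2 * g.den := by nlinarith
    exact_mod_cast this
  have b1 : (1 : ℤ) ≤ g.den := by exact_mod_cast g.pos
  have hmx : ((max g.num.natAbs g.den : ℕ) : ℝ) ≤ 2 * ((g.den : ℤ) : ℝ) := by
    have : max g.num.natAbs g.den ≤ 2 * g.den := by omega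
    rw [Int.cast_natCast]
    exact_mod_cast this
  refine hmx.trans ?_
  generalize (g.den : ℤ) = b at *
  generalize g.num = a at *
  have P0 : 0 < a * (3 * b - a) * (a - b) ^ 8 :=
    mul_pos (mul_pos (by omega) (by omega)) (pow_pos (by omega) _)
  have P1 : a * (3 * b - a) * (a - b) ^ 8 ≤ 2 * b * (2 * b) * b ^ 8 :=
    mul_le_mul (mul_le_mul a2.le (by omega) (by omega) (by omega))
      (pow_le_pow_left₀ (by omega) (by omega) _) (by positivity) (by positivity)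
  have Q1 : b ^ 11 * b ^ 3 ≤ (a + b) ^ 11 * b ^ 3 :=
    mul_le_mul_of_nonneg_right (pow_le_pow_left₀ (by omega) (by omega) _) (by positivity)
  generalize a * (3 * b - a) * (a - b) ^ 8 = P at *
  generalize (a + b) ^ 11 * b ^ 3 = Q at *
  have Q0 : 0 < Q := lt_of_lt_of_le (by positivity) Q1
  have N0 : 0 < x ^ 2 + y ^ 2 := by
    rcases hxy with e | e <;> positivity
  have Qr : (0 : ℚ) < Q := by exact_mod_cast Q0
  have Pq : (0 : ℚ) < P := by exact_mod_cast P0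
  have hd : ((12 ^ K) ^ 2 * (x ^ 2 + y ^ 2) ^ 4 * P ^ 2 / Q ^ 2 : ℚ).den = 1 := den_one fun v => by
    have l1 := L v
    have l2 := L (v.comap (c : Qb →+* Qb))
    rw [Valuation.comap_apply, Valuation.comap_apply] at l2
    simp only [map_mul (c : Qb →+* Qb), map_pow (c : Qb →+* Qb), map_add (c : Qb →+* Qb),
      map_intCast, map_ratCast, map_ofNat, RingHom.coe_coe, hc] at l2
    have l3 := mul_le_mul' l1 l2
    rw [← map_mul, ← map_mul] at l3
    have Qb0 : (Q : Qb) ≠ 0 := by exact_mod_cast Q0.ne'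
    have e : ((x : Qb) + y * i) * (x + y * -i) = x ^ 2 + y ^ 2 := by
      linear_combination (-(y : Qb) ^ 2) * hi
    push_cast
    rw [map_div₀, div_le_one₀ ((v.pos_iff).2 (pow_ne_zero _ Qb0)), ← e, sq (Q : Qb)]
    refine le_trans (le_of_eq (congrArg v ?_)) l3
    ring
  have R1 : (1 : ℚ) ≤ (12 ^ K) ^ 2 * (x ^ 2 + y ^ 2) ^ 4 * P ^ 2 / Q ^ 2 := by
    have p0 : (0 : ℚ) < (12 ^ K) ^ 2 * (x ^ 2 + y ^ 2) ^ 4 * P ^ 2 / Q ^ 2 := by positivity
    rw [← (Rat.den_eq_one_iff _).1 hd]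
    exact_mod_cast Rat.num_pos.2 p0
  rw [one_le_div (by positivity)] at R1
  have R2 : (Q : ℝ) ^ 2 ≤ (12 ^ K) ^ 2 * ((x ^ 2 + y ^ 2 : ℚ) : ℝ) ^ 4 * (P : ℝ) ^ 2 := by
    exact_mod_cast R1
  have N1 : (0 : ℝ) < ((x ^ 2 + y ^ 2 : ℚ) : ℝ) := by exact_mod_cast N0
  have B1 : (1 : ℝ) ≤ b := by exact_mod_cast b1
  have P2 : (P : ℝ) ≤ 2 * b * (2 * b) * b ^ 8 := by exact_mod_cast P1
  have Q2 : (b : ℝ) ^ 11 * b ^ 3 ≤ Q := by exact_mod_cast Q1
  have P3 : (0 : ℝ) ≤ P := by exact_mod_cast P0.le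
  have k1 : (1 : ℝ) ≤ 12 ^ K := one_le_pow₀ (by norm_num)
  generalize ((x ^ 2 + y ^ 2 : ℚ) : ℝ) = N at *
  generalize (12 : ℝ) ^ K = k at *
  have A0 : 0 < A := N1.trans_le hA
  have R3 : ((b : ℝ) ^ 11 * b ^ 3) ^ 2 ≤ (k ^ 2) ^ 2 * A ^ 4 * (2 * b * (2 * b) * b ^ 8) ^ 2 :=
    (pow_le_pow_left₀ (by positivity) Q2 2).trans (R2.trans (by
      have : k ≤ k ^ 2 := le_self_pow₀ k1 two_ne_zero
      gcongr))
  have R4 : ((b : ℝ) ^ 2) ^ 4 * b ^ 20 ≤ (2 * k * A) ^ 4 * b ^ 20 := by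
    refine le_trans (le_of_eq ?_) (R3.trans (le_of_eq ?_)) <;> ring
  have R5 := (pow_le_pow_iff_left₀ (by positivity) (by positivity) four_ne_zero).1
    (le_of_mul_le_mul_right R4 (by positivity))
  have : (b : ℝ) ≤ b ^ 2 := le_self_pow₀ B1 two_ne_zero
  linarith

theorem htof (h : VAL) : HTOF := by
  rintro ⟨κ, C', hO⟩
  obtain ⟨C, C0, hC⟩ := h
  refine ⟨W0, 1 / 1000, κ, |Real.log C| + C', by unfold W0; positivity, by norm_num,
    fun g hg => ?_⟩
  have h1 := hC g _ hg (hO g hg)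
  have m0 : (0 : ℝ) < (max g.num.natAbs g.den : ℕ) := by
    exact_mod_cast lt_max_of_lt_right g.pos
  have h2 := Real.log_le_log m0 h1
  rw [Real.log_mul C0.ne' (Real.exp_pos _).ne', Real.log_exp] at h2
  have v0 : 0 < Vis g :=
    Finset.prod_pos fun p hp => lt_trans (by norm_num) (Finset.mem_filter.1 hp).2.1
  have v1 : (1 : ℝ) ≤ (Vis g : ℝ) ^ κ := one_le_pow₀ (by exact_mod_cast v0)
  have := le_abs_self (Real.log C)
  have := le_mul_of_one_le_right (abs_nonneg (Real.log C)) v1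
  linarith

end Vale.Agent.P027M.N
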