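import Vale.Agent.P027M.N.Gauss
import Vale.Agent.P027M.N.Int
import Vale.Agent.P027M.N.Loc
import Vale.Agent.P027M.N.Val

/-! # P027, route M, block INT + VAL : the closed statement -/

namespace Vale.Agent.P027M.N

/-- the height inequality follows from the output of B2 + B3 -/
theorem ht_of_out (h : OUT23) : HT := htof (val_of (loc_of (int_of gauss leib))) h

end Vale.Agent.P027M.N
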