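import Vale.Agent.P027M.N.Defs

/-! # P027, route M, row N.der3 : derivations on the splitting field of a cubic -/

set_option linter.all false

open Polynomial

noncomputable section

namespace Vale.Agent.P027M.N

namespace D3

theorem grp {G : Type} [Group G] (φ : G →* Equiv.Perm (Fin 3)) (hφ : Function.Injective φ) :
    ∃ σ τ : G, σ ^ 3 = 1 ∧ τ⁻¹ * σ * τ ∈ Subgroup.zpowers σ ∧ τ * τ ∈ Subgroup.zpowers σ ∧
      ∀ g, g ∈ Subgroup.zpowers σ ∨ τ⁻¹ * g ∈ Subgroup.zpowers σ := by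
  let ε : G →* ℤˣ := Equiv.Perm.sign.comp φ
  have d1 : ∀ a b : Equiv.Perm (Fin 3), Equiv.Perm.sign a = 1 → Equiv.Perm.sign b = 1 → b ≠ 1 →
      a = 1 ∨ a = b ∨ a = b * b := by decide
  have d2 : ∀ b : Equiv.Perm (Fin 3), Equiv.Perm.sign b = 1 → b * b * b = 1 := by decide
  obtain ⟨σ, s1, s2⟩ : ∃ σ : G, ε σ = 1 ∧ ∀ g, ε g = 1 → g ∈ Subgroup.zpowers σ := by
    by_cases h : ∃ b : G, ε b = 1 ∧ b ≠ 1
    · obtain ⟨b, b1, b2⟩ := h
      refine ⟨b, b1, fun g hg => ?_⟩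
      rcases d1 (φ g) (φ b) hg b1 (fun e => b2 (hφ (e.trans (map_one φ).symm))) with e | e | e
      · rw [hφ (e.trans (map_one φ).symm)]
        exact one_mem _
      · rw [hφ e]
        exact Subgroup.mem_zpowers b
      · rw [hφ (e.trans (map_mul φ b b).symm)]
        exact mul_mem (Subgroup.mem_zpowers b) (Subgroup.mem_zpowers b)
    · refine ⟨1, map_one ε, fun g hg => ?_⟩
      rw [by_contra fun e : g ≠ 1 => h ⟨g, hg, e⟩]
      exact one_mem _
  obtain ⟨τ, t1⟩ : ∃ τ : G, ∀ g, ε g = 1 ∨ ε g = ε τ := by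
    by_cases h : ∃ t : G, ε t = -1
    · obtain ⟨t, ht⟩ := h
      exact ⟨t, fun g => (Int.units_eq_one_or (ε g)).imp id fun e => e.trans ht.symm⟩
    · exact ⟨1, fun g => Or.inl ((Int.units_eq_one_or (ε g)).resolve_right fun e => h ⟨g, e⟩)⟩
  refine ⟨σ, τ, hφ ?_, s2 _ ?_, s2 _ ?_, fun g => (t1 g).imp (s2 g) fun e => s2 _ ?_⟩
  · rw [map_pow, map_one, pow_three', d2 _ s1]
  · rw [map_mul, map_mul, s1, mul_one, map_inv, inv_mul_cancel]
  · rw [map_mul, Int.units_mul_self]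
  · rw [map_mul, map_inv, e, inv_mul_cancel]

theorem val_alg {Ω Γ : Type} [Field Ω] [LinearOrderedCommGroupWithZero Γ] (w : Valuation Ω Γ)
    {k0 Y : Subfield Ω} (hr : ∀ a ∈ k0, ∀ n : ℕ, 0 < n → ∃ b ∈ k0, b ^ n = a)
    (hY : ∀ y ∈ Y, y ≠ 0 → ∃ a ∈ k0, w a = w y) {x : Ω} (hx : IsAlgebraic Y x) (x0 : x ≠ 0) :
    ∃ a ∈ k0, w a = w x := by
  obtain ⟨p, p0, hp⟩ := hx
  rw [aeval_def, eval₂_eq_sum, Polynomial.sum] at hp
  have nz : ∀ i ∈ p.support, ((p.coeff i : Y) : Ω) ≠ 0 := fun i hi e =>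
    mem_support_iff.1 hi (Subtype.ext e)
  have key : ∀ i ∈ p.support, ∀ j ∈ p.support, i < j →
      w (algebraMap Y Ω (p.coeff i) * x ^ i) = w (algebraMap Y Ω (p.coeff j) * x ^ j) →
      ∃ a ∈ k0, w a = w x := fun i hi j hj hij e => by
    obtain ⟨a, ha, e1⟩ := hY _ (Y.div_mem (p.coeff i).2 (p.coeff j).2)
      (div_ne_zero (nz i hi) (nz j hj))
    obtain ⟨n, rfl⟩ := Nat.exists_eq_add_of_lt hij
    obtain ⟨b, hb, rfl⟩ := hr a ha (n + 1) n.succ_pos
    refine ⟨b, hb, (pow_left_inj₀ zero_le' zero_le' n.succ_ne_zero).1 ?_⟩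
    rw [← map_pow, e1, map_div₀, div_eq_iff ((w.ne_zero_iff).2 (nz _ hj))]
    rw [map_mul, map_mul, add_assoc, pow_add, map_mul, mul_comm (w (x ^ i)), ← mul_assoc,
      mul_left_inj' ((w.ne_zero_iff).2 (pow_ne_zero _ x0)), map_pow, mul_comm] at e
    exact e
  obtain ⟨j, hj, hm⟩ := p.support.exists_max_image
    (fun i => w (algebraMap Y Ω (p.coeff i) * x ^ i)) (support_nonempty.2 p0)
  by_contra hc
  have e := w.map_sum_eq_of_lt (f := fun i => algebraMap Y Ω (p.coeff i) * x ^ i) hj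
    fun i hi => by
      obtain ⟨h1, h2⟩ := Finset.mem_sdiff.1 hi
      refine lt_of_le_of_ne (hm i h1) fun e => hc ?_
      rcases lt_or_gt_of_ne (Finset.notMem_singleton.1 h2) with h | h
      · exact key i h1 j hj h e
      · exact key j hj i h1 h e.symm
  rw [hp, map_zero] at e
  exact (w.ne_zero_iff).2 (mul_ne_zero (nz j hj) (pow_ne_zero _ x0)) e.symm

end D3

open D3

theorem der3 (h : STEP) : DER3 := by
  intro Ω Γ _ _ _ w d k0 Y m ζ hd hk h0 hr hζ hζ3 hn hY hdY hm hc x hx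
  obtain ⟨p, hp⟩ := (mem_lifts (f := algebraMap Y Ω) _).1
    ((lifts_iff_coeff_lifts (∏ j, (X - C (m j)))).2 fun n => ⟨⟨_, hc n⟩, rfl⟩)
  have q0 : (∏ j, (X - C (m j)) : Polynomial Ω) ≠ 0 :=
    Finset.prod_ne_zero_iff.2 fun j _ => X_sub_C_ne_zero _
  have rt : ∀ z : Ω, aeval z p = 0 ↔ ∃ j, m j = z := fun z => by
    rw [← eval_map_algebraMap, hp, eval_prod, Finset.prod_eq_zero_iff]
    simp only [Finset.mem_univ, true_and, eval_sub, eval_X, eval_C, sub_eq_zero, eq_comm]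
  have rs : p.rootSet Ω = Set.range m := by
    ext z
    rw [mem_rootSet', hp, rt]
    exact ⟨fun h => h.2, fun h => ⟨q0, h⟩⟩
  haveI sp : p.IsSplittingField Y (IntermediateField.adjoin Y (Set.range m)) := by
    rw [← rs]
    refine IntermediateField.adjoin_rootSet_isSplittingField ?_
    rw [hp]
    exact Splits.prod fun j _ => Splits.X_sub_C _
  have hx' : x ∈ IntermediateField.adjoin Y (Set.range m) := by
    rw [← IntermediateField.mem_toSubfield, IntermediateField.adjoin_toSubfield]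
    convert hx
    exact Subtype.range_coe
  generalize hL : IntermediateField.adjoin Y (Set.range m) = L at hx' sp
  have hmem : ∀ j, m j ∈ L := fun j => by
    rw [← hL]
    exact IntermediateField.subset_adjoin _ _ ⟨j, rfl⟩
  have hgen : ∀ g : L ≃ₐ[Y] L, (∀ j, g ⟨m j, hmem j⟩ = ⟨m j, hmem j⟩) → g = 1 := fun g hg =>
    AlgEquiv.coe_algHom_injective (IntermediateField.algHom_ext_of_eq_adjoin Y hL.symm (by
      rintro _ ⟨j, rfl⟩
      exact hg j))
  haveI := IsSplittingField.finiteDimensional L p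
  haveI := Normal.of_isSplittingField (F := Y) (E := L) p
  haveI : IsGalois Y L := {}
  have vl : ∀ x : L, x ≠ 0 → ∃ a ∈ k0, w a = w (x : Ω) := fun x x0 =>
    val_alg w hr hY ((Algebra.IsAlgebraic.isAlgebraic (R := Y) x).algHom L.val)
      fun e => x0 (Subtype.ext e)
  refine ⟨?_, fun x0 => vl ⟨x, hx'⟩ fun e => x0 (congrArg Subtype.val e)⟩
  have hf : ∀ (g : L ≃ₐ[Y] L) (j : Fin 3), ∃ i, m i = (g ⟨m j, hmem j⟩ : L) := fun g j => by
    rw [← rt]
    have e : aeval (⟨m j, hmem j⟩ : L) p = 0 :=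
      Subtype.ext ((aeval_algHom_apply L.val _ p).symm.trans ((rt _).2 ⟨j, rfl⟩))
    exact (aeval_algHom_apply L.val _ p).trans (by rw [aeval_algHom_apply g, e, map_zero, map_zero])
  choose f hf using hf
  have hf' : ∀ (g : L ≃ₐ[Y] L) j, g ⟨m j, hmem j⟩ = ⟨m (f g j), hmem _⟩ := fun g j => Subtype.ext (hf g j).symm
  let F : (L ≃ₐ[Y] L) →* Function.End (Fin 3) :=
    { toFun := f
      map_one' := funext fun j => hm (hf 1 j)
      map_mul' := fun a b => funext fun j => hm (by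
        rw [hf, AlgEquiv.mul_apply, hf', hf']
        rfl) }
  obtain ⟨σ, τ, s3, t1, t2, all⟩ := grp F.toHomPerm ((injective_iff_map_eq_one _).2 fun g hg =>
    hgen g fun j => by
      rw [hf']
      exact Subtype.ext (congrArg m (congrArg (fun e : Equiv.Perm (Fin 3) => e j) hg)))
  have fx : ∀ y : L, σ y = y → ∀ g ∈ Subgroup.zpowers σ, g y = y := fun y hy g hg =>
    (Subgroup.zpowers_le (H := MulAction.stabilizer _ y)).2 hy hg
  let S : Subfield L := (IntermediateField.fixedField (Subgroup.zpowers σ)).toSubfield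
  have mS : ∀ y : L, y ∈ S ↔ σ y = y := fun y =>
    ⟨fun hy => hy ⟨σ, Subgroup.mem_zpowers σ⟩, fun hy g => fx y hy g g.2⟩
  let ι : L →+* Ω := L.val
  have c0 : ∀ (g : L ≃ₐ[Y] L), ∀ a ∈ k0.comap ι, g a = a := fun g a ha =>
    g.commutes ⟨a, hk ha⟩
  have vl' : ∀ x : L, x ≠ 0 → ∃ a ∈ k0.comap ι, w (ι a) = w (ι x) := fun x x0 => by
    obtain ⟨a, ha, e⟩ := vl x x0
    exact ⟨⟨a, L.algebraMap_mem ⟨a, hk ha⟩⟩, ha, e⟩
  have A := h L Ω Γ w ι (d.comp ι.toAddMonoidHom) (k0.comap ι) S τ 2 (-1) 1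
    (fun x y => hd x y) (fun a ha => (mS a).2 (c0 σ a ha)) (fun a ha => ⟨h0 _ ha, c0 τ a ha⟩) vl' hn
    two_pos (neg_mem (one_mem _)) (IsPrimitiveRoot.neg_one 0 (by norm_num))
    (fun y hy => (mS _).2 (by
      have e := congrArg τ (fx y ((mS y).1 hy) _ t1)
      rw [← AlgEquiv.mul_apply, ← mul_assoc, ← mul_assoc, mul_inv_cancel, one_mul] at e
      exact e))
    (fun y hy => fx y ((mS y).1 hy) _ t2)
    (fun y hy hτ => by
      have e : y ∈ (⊥ : IntermediateField Y L) := by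
        rw [← IsGalois.fixedField_top]
        rintro ⟨g, _⟩
        rcases all g with e | e
        · exact fx y ((mS y).1 hy) g e
        · have e2 := congrArg τ (fx y ((mS y).1 hy) _ e)
          rw [← AlgEquiv.mul_apply, ← mul_assoc, mul_inv_cancel, one_mul] at e2
          exact e2.trans hτ
      obtain ⟨z, rfl⟩ := IntermediateField.mem_bot.1 e
      rw [map_one, one_mul]
      exact hdY _ z.2)
  have B := h L Ω Γ w ι (d.comp ι.toAddMonoidHom) (k0.comap ι) ⊤ σ 3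
    ⟨ζ, L.algebraMap_mem ⟨ζ, hk hζ⟩⟩ _
    (fun x y => hd x y) le_top (fun a ha => ⟨h0 _ ha, c0 σ a ha⟩) vl' hn
    three_pos hζ (IsPrimitiveRoot.of_map_of_injective (f := ι) hζ3 ι.injective)
    (fun _ _ => trivial)
    (fun y _ => by
      have e := congrArg (fun g : L ≃ₐ[Y] L => g y) s3
      rw [pow_three] at e
      exact e)
    (fun y _ hy => A y ((mS y).2 hy)) ⟨x, hx'⟩ trivial
  rw [show ι (((3 : ℕ) : L) ^ 2 * (((2 : ℕ) : L) ^ 2 * 1)) = 36 by
    rw [map_mul, map_mul, map_pow, map_pow, map_natCast, map_natCast, map_one]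
    norm_num] at B
  exact B

end Vale.Agent.P027M.N
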