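import Vale.Agent.P027M.N.Defs

/-! # P027, route M, block INT: the Leibniz rule and the Gauss valuation (row N.GAUSS + LEIB) -/

set_option linter.all false

open scoped PowerSeries NNReal

noncomputable section

namespace Vale.Agent.P027M.N

theorem leib : LEIB := by
  intro k _ f g
  have sub : ∀ h : LaurentSeries k, (thL h).support ⊆ h.support := fun h n hn h0 => hn (by
    rw [coeff_thL, h0, mul_zero])
  ext n
  rw [mul_comm g, HahnSeries.coeff_add, coeff_thL, HahnSeries.coeff_mul,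
    HahnSeries.coeff_mul_right' g.isPWO_support (sub g),
    HahnSeries.coeff_mul_left' f.isPWO_support (sub f), Finset.mul_sum, ← Finset.sum_add_distrib]
  refine Finset.sum_congr rfl fun ij hij => ?_
  have h := (Finset.mem_addAntidiagonal.1 hij).2.2
  rw [coeff_thL, coeff_thL, ← h]
  push_cast
  ring

namespace GaussP

open PowerSeries

variable {k : Type} [Field k] (v : Valuation k ℝ≥0)

/-- integral series -/
def In (f : k⟦X⟧) : Prop := ∀ n, v (coeff n f) ≤ 1

/-- series with all coefficients in the maximal ideal -/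
def Sm (f : k⟦X⟧) : Prop := ∀ n, v (coeff n f) < 1

/-- primitive series -/
def Pr (f : k⟦X⟧) : Prop := In v f ∧ ∃ n, v (coeff n f) = 1

variable {v}

theorem In.mul {f g : k⟦X⟧} (hf : In v f) (hg : In v g) : In v (f * g) := fun n => by
  rw [coeff_mul]
  exact v.map_sum_le fun ij _ => by rw [v.map_mul]; exact mul_le_one' (hf _) (hg _)

theorem In.add {f g : k⟦X⟧} (hf : In v f) (hg : In v g) : In v (f + g) := fun n => by
  rw [map_add]
  exact v.map_add_le (hf n) (hg n)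

theorem In.neg {f : k⟦X⟧} (hf : In v f) : In v (-f) := fun n => by
  rw [map_neg, v.map_neg]
  exact hf n

theorem In.C {a : k} (h : v a ≤ 1) : In v (C a) := fun n => by
  rw [coeff_C]
  split_ifs
  · exact h
  · rw [v.map_zero]; exact zero_le_one

theorem Sm.C {a : k} (h : v a < 1) : Sm v (C a) := fun n => by
  rw [coeff_C]
  split_ifs
  · exact h
  · rw [v.map_zero]; exact zero_lt_one

theorem Sm.mul {f g : k⟦X⟧} (hf : Sm v f) (hg : In v g) : Sm v (f * g) := fun n => by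
  rw [coeff_mul]
  exact v.map_sum_lt one_ne_zero fun ij _ => by
    rw [v.map_mul]; exact (mul_le_of_le_one_right' (hg _)).trans_lt (hf _)

theorem Sm.add {f g : k⟦X⟧} (hf : Sm v f) (hg : Sm v g) : Sm v (f + g) := fun n => by
  rw [map_add]
  exact v.map_add_lt (hf n) (hg n)

theorem Pr.one : Pr v 1 := by
  refine ⟨?_, 0, by simp⟩
  have := In.C (v := v) (a := 1) (by simp)
  rwa [map_one] at this

theorem Pr.ne {f : k⟦X⟧} (hf : Pr v f) : f ≠ 0 := by
  rintro rfl
  obtain ⟨n, hn⟩ := hf.2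
  simp at hn

theorem Pr.mul {f g : k⟦X⟧} (hf : Pr v f) (hg : Pr v g) : Pr v (f * g) := by
  classical
  refine ⟨hf.1.mul hg.1, Nat.find hf.2 + Nat.find hg.2, ?_⟩
  have e : v (coeff (Nat.find hf.2) f * coeff (Nat.find hg.2) g) = 1 := by
    rw [v.map_mul, Nat.find_spec hf.2, Nat.find_spec hg.2, one_mul]
  rw [coeff_mul, v.map_sum_eq_of_lt (j := (Nat.find hf.2, Nat.find hg.2)) (by simp), e]
  intro ij hij
  obtain ⟨h1, h2⟩ := Finset.mem_sdiff.1 hij
  rw [Finset.HasAntidiagonal.mem_antidiagonal] at h1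
  rw [Finset.mem_singleton, Prod.ext_iff] at h2
  rw [e, v.map_mul]
  by_cases h : ij.1 < Nat.find hf.2
  · exact (mul_le_of_le_one_right' (hg.1 _)).trans_lt
      (lt_of_le_of_ne (hf.1 _) (Nat.find_min hf.2 h))
  · have h3 : ij.2 < Nat.find hg.2 := by
      simp only at h2
      omega
    exact (mul_le_of_le_one_left' (hf.1 _)).trans_lt
      (lt_of_le_of_ne (hg.1 _) (Nat.find_min hg.2 h3))

theorem coe_ne {f : k⟦X⟧} (hf : f ≠ 0) : (f : LaurentSeries k) ≠ 0 := fun h =>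
  hf (HahnSeries.ofPowerSeries_injective (h.trans coe_zero.symm))

variable (v) in
/-- the local ring of the Gauss point -/
def AA : Subring (LaurentSeries k) where
  carrier := {z | ∃ a b : k⟦X⟧, In v a ∧ Pr v b ∧ (b : LaurentSeries k) * z = a}
  mul_mem' := by
    rintro x y ⟨a, b, ha, hb, h⟩ ⟨c, d, hc, hd, h'⟩
    exact ⟨a * c, b * d, ha.mul hc, hb.mul hd, by rw [coe_mul, coe_mul, ← h, ← h']; ring⟩
  one_mem' := ⟨1, 1, Pr.one.1, Pr.one, mul_one _⟩
  add_mem' := by
    rintro x y ⟨a, b, ha, hb, h⟩ ⟨c, d, hc, hd, h'⟩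
    exact ⟨a * d + c * b, b * d, (ha.mul hd.1).add (hc.mul hb.1), hb.mul hd, by
      rw [coe_add, coe_mul, coe_mul, coe_mul, ← h, ← h']; ring⟩
  zero_mem' := ⟨0, 1, fun n => by simp, Pr.one, by rw [mul_zero, coe_zero]⟩
  neg_mem' := by
    rintro x ⟨a, b, ha, hb, h⟩
    exact ⟨-a, b, ha.neg, hb, by rw [coe_neg, ← h]; ring⟩

variable (v) in
/-- its maximal ideal -/
def II : Ideal (AA v) where
  carrier := {z | ∃ a b : k⟦X⟧, Sm v a ∧ Pr v b ∧ (b : LaurentSeries k) * z.1 = a}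
  add_mem' := by
    rintro x y ⟨a, b, ha, hb, h⟩ ⟨c, d, hc, hd, h'⟩
    exact ⟨a * d + c * b, b * d, (ha.mul hd.1).add (hc.mul hb.1), hb.mul hd, by
      rw [coe_add, coe_mul, coe_mul, coe_mul, ← h, ← h', Subring.coe_add]; ring⟩
  zero_mem' := ⟨0, 1, fun n => by simp, Pr.one, by rw [Subring.coe_zero, mul_zero, coe_zero]⟩
  smul_mem' := by
    rintro x y ⟨c, d, hc, hd, h'⟩
    obtain ⟨a, b, ha, hb, h⟩ := x.2
    exact ⟨c * a, b * d, hc.mul ha, hb.mul hd, by
      rw [coe_mul, coe_mul, ← h, ← h', smul_eq_mul, Subring.coe_mul]; ring⟩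

variable (v) in
theorem exists_W : ∃ W : ValuationSubring (LaurentSeries k),
    (∀ f : k⟦X⟧, In v f → W.valuation (f : LaurentSeries k) ≤ 1) ∧
    (∀ f : k⟦X⟧, Sm v f → W.valuation (f : LaurentSeries k) < 1) ∧
    ∀ f : k⟦X⟧, Pr v f → W.valuation (f : LaurentSeries k) = 1 := by
  have ne : II v ≠ ⊤ := by
    rw [Ideal.ne_top_iff_one]
    rintro ⟨a, b, ha, hb, h⟩
    rw [Subring.coe_one, mul_one] at h
    obtain ⟨n, hn⟩ := hb.2
    rw [HahnSeries.ofPowerSeries_injective h] at hn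
    exact (ha n).ne hn
  obtain ⟨W, h1, h2⟩ := Ideal.image_subset_nonunits_valuationSubring (II v) ne
  have m : ∀ f : k⟦X⟧, In v f → (f : LaurentSeries k) ∈ AA v := fun f hf =>
    ⟨f, 1, hf, Pr.one, by rw [coe_one, one_mul]⟩
  have le : ∀ f : k⟦X⟧, In v f → W.valuation (f : LaurentSeries k) ≤ 1 := fun f hf =>
    (W.valuation_le_one_iff _).2 (h1 (m f hf))
  refine ⟨W, le, fun f hf => W.mem_nonunits_iff.1 (h2 ⟨⟨f, m f fun n => (hf n).le⟩,
    ⟨f, 1, hf, Pr.one, by rw [coe_one, one_mul]⟩, rfl⟩), fun f hf => le_antisymm (le f hf.1) ?_⟩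
  have h0 := coe_ne hf.ne
  have h3 : W.valuation (f : LaurentSeries k)⁻¹ ≤ 1 := (W.valuation_le_one_iff _).2
    (h1 ⟨1, f, Pr.one.1, hf, by rw [mul_inv_cancel₀ h0, coe_one]⟩)
  rwa [map_inv₀, inv_le_one₀ (zero_lt_iff.2 ((Valuation.ne_zero_iff _).2 h0))] at h3

theorem BD.mul {f g : k⟦X⟧} (hf : BD f) (hg : BD g) : BD (f * g) := by
  obtain ⟨M, hM, h⟩ := hf
  obtain ⟨N, hN, h'⟩ := hg
  refine ⟨M * N, hM.mul hN, fun n => ?_⟩
  rw [coeff_mul]
  exact Submodule.sum_mem _ fun ij _ => Submodule.mul_mem_mul (h _) (h' _)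

theorem BD.add {f g : k⟦X⟧} (hf : BD f) (hg : BD g) : BD (f + g) := by
  obtain ⟨M, hM, h⟩ := hf
  obtain ⟨N, hN, h'⟩ := hg
  refine ⟨M ⊔ N, hM.sup hN, fun n => ?_⟩
  rw [map_add]
  exact Submodule.add_mem_sup (h n) (h' n)

theorem BD.neg {f : k⟦X⟧} (hf : BD f) : BD (-f) := by
  obtain ⟨M, hM, h⟩ := hf
  exact ⟨M, hM, fun n => by rw [map_neg]; exact M.neg_mem (h n)⟩

theorem BD.C (a : k) : BD (C a : k⟦X⟧) := by
  refine ⟨Submodule.span ℤ {a}, Submodule.fg_span_singleton a, fun n => ?_⟩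
  rw [coeff_C]
  split_ifs
  · exact Submodule.mem_span_singleton_self a
  · exact zero_mem _

theorem BD.one : BD (1 : k⟦X⟧) := by
  have := BD.C (1 : k)
  rwa [map_one] at this

theorem BD.zero : BD (0 : k⟦X⟧) := by
  have := BD.C (0 : k)
  rwa [map_zero] at this

variable (k) in
/-- the field of quotients of series with bounded denominators -/
def YY : Subfield (LaurentSeries k) where
  carrier := {z | ∃ a b : k⟦X⟧, BD a ∧ BD b ∧ b ≠ 0 ∧ (b : LaurentSeries k) * z = a}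
  mul_mem' := by
    rintro x y ⟨a, b, ha, hb, b0, h⟩ ⟨c, d, hc, hd, d0, h'⟩
    exact ⟨a * c, b * d, BD.mul ha hc, BD.mul hb hd, mul_ne_zero b0 d0, by
      rw [coe_mul, coe_mul, ← h, ← h']; ring⟩
  one_mem' := ⟨1, 1, BD.one, BD.one, one_ne_zero, mul_one _⟩
  add_mem' := by
    rintro x y ⟨a, b, ha, hb, b0, h⟩ ⟨c, d, hc, hd, d0, h'⟩
    exact ⟨a * d + c * b, b * d, BD.add (BD.mul ha hd) (BD.mul hc hb), BD.mul hb hd,
      mul_ne_zero b0 d0, by rw [coe_add, coe_mul, coe_mul, coe_mul, ← h, ← h']; ring⟩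
  zero_mem' := ⟨0, 1, BD.zero, BD.one, one_ne_zero, by rw [mul_zero, coe_zero]⟩
  neg_mem' := by
    rintro x ⟨a, b, ha, hb, b0, h⟩
    exact ⟨-a, b, BD.neg ha, hb, b0, by rw [coe_neg, ← h]; ring⟩
  inv_mem' := by
    rintro x ⟨a, b, ha, hb, b0, h⟩
    by_cases x0 : x = 0
    · exact ⟨0, 1, BD.zero, BD.one, one_ne_zero, by rw [x0, inv_zero, mul_zero, coe_zero]⟩
    · refine ⟨b, a, hb, ha, ?_, by rw [← h, mul_assoc, mul_inv_cancel₀ x0, mul_one]⟩
      rintro rfl
      exact mul_ne_zero (coe_ne b0) x0 (h.trans coe_zero)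

/-- a series with bounded denominators is a constant times a primitive series -/
theorem prim (hv : ∀ n : ℤ, v (n : k) ≤ 1) {f : k⟦X⟧} (hf : BD f) (f0 : f ≠ 0) :
    ∃ (c : k) (g : k⟦X⟧), c ≠ 0 ∧ Pr v g ∧ f = C c * g ∧ ∀ n, v (coeff n f) ≤ v c := by
  obtain ⟨M, hM, h⟩ := hf
  have fg : (Submodule.span ℤ (Set.range fun n => coeff n f)).FG :=
    hM.of_le (Submodule.span_le.2 (by rintro _ ⟨n, rfl⟩; exact h n))
  obtain ⟨s, hs, e⟩ := (Submodule.fg_span_iff_fg_span_finset_subset _).1 fg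
  have bd : ∀ t : ℝ≥0, (∀ x ∈ s, v x ≤ t) → ∀ n, v (coeff n f) ≤ t := by
    intro t ht n
    have hn : coeff n f ∈ Submodule.span ℤ (s : Set k) := e ▸ Submodule.subset_span ⟨n, rfl⟩
    generalize coeff n f = x at hn
    induction hn using Submodule.span_induction with
    | mem x hx => exact ht x hx
    | zero => rw [v.map_zero]; exact zero_le
    | add x y _ _ hx hy => exact v.map_add_le hx hy
    | smul a x _ hx =>
      rw [zsmul_eq_mul, v.map_mul]
      exact (mul_le_of_le_one_left' (hv a)).trans hx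
  have z : ¬ ∀ n, v (coeff n f) ≤ 0 := fun hz => f0 (by
    ext n
    exact (Valuation.zero_iff v).1 (le_antisymm (hz n) zero_le))
  have ne : s.Nonempty := by
    rw [Finset.nonempty_iff_ne_empty]
    rintro rfl
    exact z (bd 0 (by simp))
  obtain ⟨c, hc, mx⟩ := s.exists_max_image v ne
  have c0 : c ≠ 0 := by
    rintro rfl
    rw [v.map_zero] at mx
    exact z (bd 0 mx)
  have v0 : 0 < v c := zero_lt_iff.2 ((Valuation.ne_zero_iff v).2 c0)
  obtain ⟨n, hn⟩ := hs hc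
  refine ⟨c, C c⁻¹ * f, c0, ⟨fun m => ?_, n, ?_⟩, ?_, bd _ mx⟩
  · rw [coeff_C_mul, v.map_mul, map_inv₀, inv_mul_le_iff₀ v0, mul_one]
    exact bd _ mx m
  · simp only at hn
    rw [coeff_C_mul, hn, inv_mul_cancel₀ c0, v.map_one]
  · rw [← mul_assoc, ← map_mul, mul_inv_cancel₀ c0, map_one, one_mul]

theorem coeff_th (f : k⟦X⟧) (n : ℕ) : coeff n (B.th f) = (n : k) * coeff n f := by
  rw [B.th]
  cases n with
  | zero => simp
  | succ n =>
    rw [coeff_succ_X_mul, coeff_derivative]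
    push_cast
    ring

end GaussP

open GaussP PowerSeries in
theorem gauss : GAUSS := by
  intro k _ _ v hv
  obtain ⟨W, w1, w2, w3⟩ := exists_W v
  have C0 : ∀ a : k, a ≠ 0 → 0 < W.valuation (HahnSeries.C a : LaurentSeries k) := fun a ha =>
    zero_lt_iff.2 ((Valuation.ne_zero_iff _).2 ((_root_.map_ne_zero _).2 ha))
  have one : ∀ c : k, W.valuation (HahnSeries.C c : LaurentSeries k) ≤ 1 ↔ v c ≤ 1 := by
    intro c
    refine ⟨fun h => ?_, fun h => by rw [← coe_C]; exact w1 _ (In.C h)⟩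
    by_contra hc
    rw [not_le] at hc
    have c0 : c ≠ 0 := by
      rintro rfl
      rw [v.map_zero] at hc
      exact not_lt_zero hc
    have h1 := w2 _ (Sm.C (v := v) (a := c⁻¹) (by rw [map_inv₀]; exact inv_lt_one_of_one_lt₀ hc))
    rw [coe_C, map_inv₀, map_inv₀, inv_lt_one₀ (C0 c c0)] at h1
    exact h1.not_ge h
  have cmp : ∀ a b : k, W.valuation (HahnSeries.C a : LaurentSeries k) ≤
      W.valuation (HahnSeries.C b) ↔ v a ≤ v b := by
    intro a b
    by_cases hb : b = 0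
    · rw [hb, map_zero, map_zero, map_zero, le_zero_iff, le_zero_iff, Valuation.zero_iff,
        Valuation.zero_iff, _root_.map_eq_zero]
    · have h := one (a / b)
      rwa [map_div₀, map_div₀, map_div₀, div_le_one₀ (C0 b hb),
        div_le_one₀ (zero_lt_iff.2 ((Valuation.ne_zero_iff v).2 hb))] at h
  have val : ∀ f : k⟦X⟧, BD f → f ≠ 0 → ∃ c : k, c ≠ 0 ∧
      W.valuation (HahnSeries.C c : LaurentSeries k) = W.valuation (f : LaurentSeries k) ∧
      W.valuation (thL (f : LaurentSeries k)) ≤ W.valuation (f : LaurentSeries k) ∧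
      ∀ n, v (coeff n f) ≤ v c := by
    intro f hf f0
    obtain ⟨c, g, c0, hg, rfl, hc⟩ := prim hv hf f0
    refine ⟨c, c0, by rw [coe_mul, coe_C, map_mul, w3 g hg, mul_one], ?_, hc⟩
    rw [coe_mul, coe_C, leib, thL_C, mul_zero, add_zero, map_mul, map_mul, w3 g hg, thL_coe]
    refine mul_le_mul_right (w1 _ fun n => ?_) _
    rw [coeff_th, v.map_mul]
    exact mul_le_one' (by exact_mod_cast hv n) (hg.1 n)
  refine ⟨W, YY k, cmp, fun a => ⟨C a, 1, BD.C a, BD.one, one_ne_zero, by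
    rw [coe_one, one_mul, coe_C]⟩, ?_, ?_, ?_, fun f hf n => ?_⟩
  · rintro y ⟨a, b, ha, hb, b0, h⟩
    exact ⟨a, b, ha, hb, b0, by rw [← coe_mul, h]⟩
  · rintro y ⟨a, b, ha, hb, b0, h⟩ y0
    have a0 : a ≠ 0 := by
      rintro rfl
      exact mul_ne_zero (coe_ne b0) y0 (h.trans coe_zero)
    obtain ⟨c, c0, hc, -⟩ := val a ha a0
    obtain ⟨d, d0, hd, -⟩ := val b hb b0
    refine ⟨c / d, ?_⟩
    rw [map_div₀, map_div₀, hc, ← h, map_mul, ← hd, mul_div_cancel_left₀ _ (C0 d d0).ne']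
  · rintro y ⟨a, b, ha, hb, b0, h⟩
    by_cases y0 : y = 0
    · have := thL_C (0 : k)
      rw [map_zero] at this
      rw [y0, this]
    have a0 : a ≠ 0 := by
      rintro rfl
      exact mul_ne_zero (coe_ne b0) y0 (h.trans coe_zero)
    obtain ⟨c, c0, hc, ta, -⟩ := val a ha a0
    obtain ⟨d, d0, hd, tb, -⟩ := val b hb b0
    have e : (b : LaurentSeries k) * thL y = thL (a : LaurentSeries k) - y * thL b := by
      rw [← h, leib]; ring
    have h1 : W.valuation (b : LaurentSeries k) * W.valuation (thL y) ≤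
        W.valuation (b : LaurentSeries k) * W.valuation y := by
      rw [← map_mul, e]
      refine W.valuation.map_sub_le (by rwa [← map_mul, h]) ?_
      rw [map_mul, mul_comm]
      exact mul_le_mul_left tb _
    exact le_of_mul_le_mul_left h1 (hd ▸ C0 d d0)
  · by_cases f0 : f = 0
    · rw [f0, map_zero, map_zero, map_zero]
      exact zero_le
    · obtain ⟨c, -, hc, -, h⟩ := val f hf f0
      rw [← hc, cmp]
      exact h n

end Vale.Agent.P027M.N
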